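import Mathlib

/-!
P262: checkpoints, registration and chunks.
-/

namespace Vale.Agent.P262

open Finset

theorem stab_min (w : ℕ → ℝ) (D : ℝ) (k : ℕ) (hw : ∀ i, 0 ≤ w i) (hD : ∑ i ∈ range k, w i ≤ D)
    (S : Finset ℕ) (hS : ∀ a b, b ≤ k → 1 / 4 < ∑ i ∈ Ico a b, w i → ∃ p ∈ S, p ∈ Ico a b) :
    ∃ S' ⊆ S, (S'.card : ℝ) ≤ 8 * D ∧
      ∀ a b, b ≤ k → 1 / 4 < ∑ i ∈ Ico a b, w i → ∃ p ∈ S', p ∈ Ico a b := by
  classical
  obtain ⟨S', hS', hmin⟩ := exists_min_image (S.powerset.filter fun S' =>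
    ∀ a b, b ≤ k → 1 / 4 < ∑ i ∈ Ico a b, w i → ∃ p ∈ S', p ∈ Ico a b) card
    ⟨S, mem_filter.2 ⟨mem_powerset_self _, hS⟩⟩
  obtain ⟨h1, h2⟩ := mem_filter.1 hS'
  rw [mem_powerset] at h1
  refine ⟨S', h1, ?_, h2⟩
  have h3 : ∀ p ∈ S', ∃ a b, b ≤ k ∧ 1 / 4 < ∑ i ∈ Ico a b, w i ∧ p ∈ Ico a b ∧
      ∀ q ∈ S', q ∈ Ico a b → q = p := by
    intro p hp
    by_contra hc
    push Not at hc
    have h4 := hmin (S'.erase p) (mem_filter.2 ⟨mem_powerset.2 ((erase_subset _ _).trans h1),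
      fun a b hb hab => by
        obtain ⟨q, hq1, hq2⟩ := h2 a b hb hab
        by_cases hqp : q = p
        · subst hqp
          obtain ⟨q', h5, h6, h7⟩ := hc a b hb hab hq2
          exact ⟨q', mem_erase.2 ⟨h7, h5⟩, h6⟩
        · exact ⟨q, mem_erase.2 ⟨hqp, hq1⟩, hq2⟩⟩)
    have := card_erase_lt_of_mem hp
    omega
  choose! a b hb hab hp hu using h3
  have h4 : ∑ p ∈ S', (1 / 4 : ℝ) ≤ ∑ p ∈ S', ∑ i ∈ range k, if i ∈ Ico (a p) (b p) then w i else 0 := by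
    refine sum_le_sum fun p hp' => (hab p hp').le.trans (le_of_eq ?_)
    rw [← sum_filter]
    refine sum_congr ?_ fun _ _ => rfl
    ext i
    have := hb p hp'
    simp only [mem_filter, mem_range, mem_Ico]
    omega
  rw [sum_comm, sum_const, nsmul_eq_mul] at h4
  have h5 : ∀ i ∈ range k, ∑ p ∈ S', (if i ∈ Ico (a p) (b p) then w i else 0) ≤ 2 * w i := by
    intro i _
    rw [← sum_filter, sum_const, nsmul_eq_mul]
    refine mul_le_mul_of_nonneg_right ?_ (hw i)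
    have h6 : (S'.filter fun p => i ∈ Ico (a p) (b p)).card ≤ 2 := by
      by_contra hc
      obtain ⟨x, y, z, hx, hy, hz, hxy, hxz, hyz⟩ := two_lt_card_iff.1 (not_le.1 hc)
      obtain ⟨hx1, hx2⟩ := mem_filter.1 hx
      obtain ⟨hy1, hy2⟩ := mem_filter.1 hy
      obtain ⟨hz1, hz2⟩ := mem_filter.1 hz
      have a1 := hu x hx1 y hy1
      have a2 := hu x hx1 z hz1
      have a3 := hu y hy1 x hx1
      have a4 := hu y hy1 z hz1
      have a5 := hu z hz1 x hx1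
      have a6 := hu z hz1 y hy1
      have b1 := hp x hx1
      have b2 := hp y hy1
      have b3 := hp z hz1
      simp only [mem_Ico] at *
      omega
    exact_mod_cast h6
  have h6 := sum_le_sum h5
  rw [← mul_sum] at h6
  linarith

theorem stab (m : ℕ → ℕ → ℝ) (D : ℝ) (hm0 : ∀ i k, 0 ≤ m i k)
    (hmm : ∀ i k, i < k → m i (k + 1) ≤ m i k) (hD : ∀ k, ∑ i ∈ range k, m i k ≤ D) :
    ∃ C : ℕ → Finset ℕ, (∀ k, C k ⊆ range k) ∧ (∀ k, C (k + 1) ⊆ insert k (C k)) ∧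
      (∀ k, ((C k).card : ℝ) ≤ 8 * D) ∧
      ∀ k a b, b ≤ k → 1 / 4 < ∑ i ∈ Ico a b, m i k → ∃ p ∈ C k, p ∈ Ico a b := by
  let P : ℕ → Finset ℕ → Prop := fun k S => S ⊆ range k ∧ (S.card : ℝ) ≤ 8 * D ∧
    ∀ a b, b ≤ k → 1 / 4 < ∑ i ∈ Ico a b, m i k → ∃ p ∈ S, p ∈ Ico a b
  have h0 : P 0 ∅ := by
    refine ⟨by simp, by simpa using hD 0, fun a b hb h => ?_⟩
    rw [Ico_eq_empty_of_le (by omega), sum_empty] at h
    norm_num at h
  have hstep : ∀ k S, P k S → ∃ S', P (k + 1) S' ∧ S' ⊆ insert k S := by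
    rintro k S ⟨h1, _, h3⟩
    obtain ⟨S', h4, h5, h6⟩ := stab_min (fun i => m i (k + 1)) D (k + 1) (fun i => hm0 _ _)
      (hD _) (insert k S) (by
        intro a b hb hab
        by_cases hk : k ∈ Ico a b
        · exact ⟨k, mem_insert_self _ _, hk⟩
        · have hne : a < b := by
            by_contra hc
            rw [Ico_eq_empty_of_le (by omega), sum_empty] at hab
            norm_num at hab
          have hb' : b ≤ k := by
            simp only [mem_Ico] at hk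
            omega
          obtain ⟨p, hp1, hp2⟩ := h3 a b hb' (hab.trans_le (sum_le_sum fun i hi =>
            hmm i k (by have := (mem_Ico.1 hi).2; omega)))
          exact ⟨p, mem_insert_of_mem hp1, hp2⟩)
    refine ⟨S', ⟨h4.trans ?_, h5, h6⟩, h4⟩
    rw [range_add_one]
    exact insert_subset_insert _ h1
  choose f hf1 hf2 using hstep
  let C : (k : ℕ) → {S // P k S} := fun k =>
    Nat.rec ⟨∅, h0⟩ (fun k S => ⟨f k S.1 S.2, hf1 k S.1 S.2⟩) k
  exact ⟨fun k => (C k).1, fun k => (C k).2.1, fun k => hf2 k _ (C k).2, fun k => (C k).2.2.1,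
    fun k => (C k).2.2.2⟩

theorem binpack {X : Type} [Fintype X] (w : X → ℝ) (hw0 : ∀ x, 0 ≤ w x) (hw1 : ∀ x, w x ≤ 1)
    (g e : X → ℕ) : ∃ q : X → ℕ, (∀ ρ q0, ∑ x with g x = ρ ∧ q x = q0, w x ≤ 2) ∧
      ∀ x, (q x : ℝ) ≤ ∑ x' with g x' = g x ∧ e x ≤ e x', w x' := by
  classical
  let idx : X → ℕ := fun x => Fintype.equivFin X x
  have hidx : ∀ x, idx x < Fintype.card X := fun x => (Fintype.equivFin X x).2
  let key : X → ℕ := fun x => e x * Fintype.card X + idx x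
  have hk1 : ∀ x x', key x < key x' → e x ≤ e x' := by
    intro x x' h
    by_contra hc
    have h1 : (e x' + 1) * Fintype.card X ≤ e x * Fintype.card X :=
      Nat.mul_le_mul_right _ (by omega)
    have := hidx x'
    simp only [key] at h
    nlinarith
  have hk2 : ∀ x x', key x = key x' → x = x' := by
    intro x x' h
    have h1 : key x % Fintype.card X = idx x := by
      simp only [key]; rw [Nat.mul_add_mod_of_lt (hidx x)]
    have h2 : key x' % Fintype.card X = idx x' := by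
      simp only [key]; rw [Nat.mul_add_mod_of_lt (hidx x')]
    exact (Fintype.equivFin X).injective (Fin.ext (by
      change idx x = idx x'
      rw [← h1, ← h2, h]))
  let cum : X → ℝ := fun x => ∑ x' with g x' = g x ∧ key x < key x', w x'
  have hc0 : ∀ x, 0 ≤ cum x := fun x => sum_nonneg fun _ _ => hw0 _
  refine ⟨fun x => ⌊cum x⌋₊, fun ρ q0 => ?_, fun x => (Nat.floor_le (hc0 x)).trans ?_⟩
  · rcases (univ.filter fun x => g x = ρ ∧ ⌊cum x⌋₊ = q0).eq_empty_or_nonempty with h | h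
    · rw [h]; simp
    obtain ⟨x0, hx0, hmin⟩ := exists_min_image _ key h
    obtain ⟨x1, hx1, hmax⟩ := exists_max_image _ key h
    obtain ⟨hg0, hq0⟩ := (mem_filter.1 hx0).2
    obtain ⟨hg1, hq1⟩ := (mem_filter.1 hx1).2
    have h1 : cum x0 < q0 + 1 := by rw [← hq0]; exact Nat.lt_floor_add_one _
    have h2 : (q0 : ℝ) ≤ cum x1 := by rw [← hq1]; exact Nat.floor_le (hc0 _)
    have h3 : ∑ x with g x = ρ ∧ ⌊cum x⌋₊ = q0, w x + cum x1 ≤ w x0 + cum x0 := by
      simp only [cum]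
      rw [← sum_union, ← sum_insert (by simp)]
      · refine sum_le_sum_of_subset_of_nonneg (fun x hx => ?_) fun _ _ _ => hw0 _
        rw [mem_insert, mem_filter]
        rcases mem_union.1 hx with hx | hx
        · rcases (hmin x hx).eq_or_lt with h4 | h4
          · exact Or.inl (hk2 _ _ h4.symm)
          · exact Or.inr ⟨mem_univ _, by rw [hg0]; exact (mem_filter.1 hx).2.1, h4⟩
        · obtain ⟨h4, h5⟩ := (mem_filter.1 hx).2
          exact Or.inr ⟨mem_univ _, by rw [h4, hg0, hg1], (hmin x1 hx1).trans_lt h5⟩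
      · rw [disjoint_left]
        intro x hx hx'
        exact absurd (mem_filter.1 hx').2.2 (not_lt.2 (hmax x hx))
    linarith [hw1 x0]
  · refine sum_le_sum_of_subset_of_nonneg (fun x' hx' => ?_) fun _ _ _ => hw0 _
    obtain ⟨h1, h2⟩ := (mem_filter.1 hx').2
    exact mem_filter.2 ⟨mem_univ _, h1, hk1 _ _ h2⟩

theorem geo_small {L : ℕ} (s : Finset (Fin L)) (c : ℝ) (hc : 0 ≤ c)
    (h : ∀ r ∈ s, (1 / 2 : ℝ) ^ (r : ℕ) ≤ c) : ∑ r ∈ s, (1 / 2 : ℝ) ^ (r : ℕ) ≤ 2 * c := by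
  rcases s.eq_empty_or_nonempty with rfl | hs
  · simpa using hc
  obtain ⟨r0, hr0, hmin⟩ := exists_min_image s (fun r => (r : ℕ)) hs
  have h1 : ∑ r ∈ s, (1 / 2 : ℝ) ^ (r : ℕ) = ∑ r ∈ s.map Fin.valEmbedding, (1 / 2 : ℝ) ^ r := by
    rw [sum_map]; rfl
  have h2 : s.map Fin.valEmbedding ⊆ Ico (r0 : ℕ) L := by
    intro r hr
    obtain ⟨r', hr', rfl⟩ := mem_map.1 hr
    exact mem_Ico.2 ⟨hmin r' hr', r'.2⟩
  have h3 := geom_sum_Ico_le_of_lt_one (m := r0) (n := L) (x := (1 / 2 : ℝ)) (by norm_num)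
    (by norm_num)
  have h4 := sum_le_sum_of_subset_of_nonneg (f := fun r => (1 / 2 : ℝ) ^ r) h2
    fun _ _ _ => by positivity
  have h5 := h r0 hr0
  norm_num at h3 h5 h4 h1 ⊢
  linarith

open Classical in
theorem chunks {J : Type} [Fintype J] (T : J → ℕ) (n : J → ℕ → ℝ) (r : J → ℕ → ℕ)
    (m : ℕ → ℕ → ℝ) (D : ℝ)
    (hr : ∀ j k, k ≤ T j → (1 / 2) ^ (r j k + 1) < n j k ∧ n j k ≤ (1 / 2) ^ (r j k))
    (hnm : ∀ j k k', k ≤ k' → k' ≤ T j → n j k ≤ n j k')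
    (hrank : ∀ j a b k, a ≤ b → b ≤ k → k ≤ T j →
      n j b - n j a ≤ n j k * ∑ i ∈ Ico a b, m i k)
    (hm0 : ∀ i k, 0 ≤ m i k) (hmm : ∀ i k, i < k → m i (k + 1) ≤ m i k)
    (hD : ∀ k, ∑ i ∈ range k, m i k ≤ D) (hnD : ∀ k, ∑ j with k ≤ T j, n j k ≤ D) (L : ℕ) :
    ∃ ch : J × Fin L → ℕ × ℕ,
      (∀ γ, ∑ x with ch x = γ ∧ ∃ k ≤ T x.1, r x.1 k = x.2, (1 / 2 : ℝ) ^ (x.2 : ℕ) ≤ 2) ∧
      ∀ k, (((univ.filter fun x : J × Fin L => k ≤ T x.1 ∧ r x.1 k = x.2).image ch).card : ℝ)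
        ≤ 16 * D + 1 := by
  obtain ⟨C, hC1, hC2, hC3, hC4⟩ := stab m D hm0 hmm hD
  have hCd : ∀ p k e, p < k → k ≤ e → p ∈ C e → p ∈ C k := by
    intro p k e hpk hke
    induction e, hke using Nat.le_induction with
    | base => exact id
    | succ e he ih =>
      intro h
      rcases mem_insert.1 (hC2 e h) with h1 | h1
      · omega
      · exact ih h1
  let C' : ℕ → Finset ℕ := fun k => insert 0 ((C k).image (· + 1))
  have hC' : ∀ k, ∀ ρ ∈ C' k, ρ ≤ k := by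
    intro k ρ h
    rcases mem_insert.1 h with h | h
    · omega
    · obtain ⟨p, hp, rfl⟩ := mem_image.1 h
      exact mem_range.1 (hC1 k hp)
  have hC'c : ∀ k, ((C' k).card : ℝ) ≤ 8 * D + 1 := by
    intro k
    have h1 : (C' k).card ≤ (C k).card + 1 :=
      (card_insert_le _ _).trans (Nat.add_le_add_right card_image_le 1)
    have h2 : ((C' k).card : ℝ) ≤ (C k).card + 1 := by exact_mod_cast h1
    linarith [hC3 k]
  have hreg : ∀ x : J × Fin L, ∃ ρ e : ℕ, (∃ k ≤ T x.1, r x.1 k = x.2) →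
      e ≤ T x.1 ∧ (1 / 2) ^ ((x.2 : ℕ) + 2) < n x.1 ρ ∧
      ∀ k ≤ T x.1, r x.1 k = x.2 → k ≤ e ∧ ρ ∈ C' k := by
    rintro ⟨j, r0⟩
    by_cases hv : ∃ k ≤ T j, r j k = r0
    swap
    · exact ⟨0, 0, fun h => absurd h hv⟩
    obtain ⟨k0, hk0, hk0'⟩ := hv
    let A := (range (T j + 1)).filter fun k => r j k = r0
    have hA : ∀ k, k ∈ A ↔ k ≤ T j ∧ r j k = r0 := fun k => by simp [A]
    have hAn : A.Nonempty := ⟨k0, (hA _).2 ⟨hk0, hk0'⟩⟩
    obtain ⟨b, hb, hbm⟩ := exists_min_image A id hAn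
    obtain ⟨e, he, hem⟩ := exists_max_image A id hAn
    simp only [id] at hbm hem
    obtain ⟨hb1, hb2⟩ := (hA _).1 hb
    obtain ⟨he1, he2⟩ := (hA _).1 he
    by_cases h0 : (1 / 2) ^ ((r0 : ℕ) + 2) < n j 0
    · exact ⟨0, e, fun _ => ⟨he1, h0, fun k hk hk' =>
        ⟨hem k ((hA _).2 ⟨hk, hk'⟩), mem_insert_self _ _⟩⟩⟩
    obtain ⟨a, ha, ham⟩ := exists_max_image
      ((range (b + 1)).filter fun a => n j a ≤ (1 / 2) ^ ((r0 : ℕ) + 2)) id
      ⟨0, by simpa using not_lt.1 h0⟩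
    simp only [id, mem_filter, mem_range] at ha ham
    have h1 := hrank j a b e (by omega) (hbm e he) he1
    have h2 := (hr j b hb1).1
    have h3 := hr j e he1
    rw [hb2] at h2
    rw [he2] at h3
    have h4 : 1 / 4 < ∑ i ∈ Ico a b, m i e := by
      by_contra hc
      have h5 : 0 < (1 / 2 : ℝ) ^ (r0 : ℕ) := by positivity
      have h6 := mul_le_mul h3.2 (not_lt.1 hc) (sum_nonneg fun _ _ => hm0 _ _) h5.le
      have h7 := ha.2
      simp only [pow_add] at h2 h7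
      linarith
    obtain ⟨p, hp1, hp2⟩ := hC4 e a b (hbm e he) h4
    rw [mem_Ico] at hp2
    refine ⟨p + 1, e, fun _ => ⟨he1, ?_, fun k hk hk' => ⟨hem k ((hA _).2 ⟨hk, hk'⟩), ?_⟩⟩⟩
    · by_contra hc
      have := ham (p + 1) ⟨by omega, not_lt.1 hc⟩
      omega
    · have h5 := hbm k ((hA _).2 ⟨hk, hk'⟩)
      exact mem_insert_of_mem (mem_image.2
        ⟨p, hCd p k e (by omega) (hem k ((hA _).2 ⟨hk, hk'⟩)) hp1, rfl⟩)
  choose g e hge using hreg
  let w : J × Fin L → ℝ := fun x =>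
    if ∃ k ≤ T x.1, r x.1 k = x.2 then (1 / 2 : ℝ) ^ (x.2 : ℕ) else 0
  have hw0 : ∀ x, 0 ≤ w x := fun x => by simp only [w]; split_ifs <;> positivity
  have hw1 : ∀ x, w x ≤ 1 := fun x => by
    simp only [w]
    split_ifs
    · exact pow_le_one₀ (by norm_num) (by norm_num)
    · norm_num
  obtain ⟨q, hq1, hq2⟩ := binpack w hw0 hw1 g e
  refine ⟨fun x => (g x, q x), fun γ => ?_, fun k => ?_⟩
  · refine le_trans (le_of_eq ?_) (hq1 γ.1 γ.2)
    rw [sum_filter, sum_filter]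
    refine sum_congr rfl fun x _ => ?_
    simp only [w, Prod.ext_iff]
    by_cases h1 : g x = γ.1 ∧ q x = γ.2 <;> by_cases h2 : ∃ k ≤ T x.1, r x.1 k = x.2 <;>
      simp [h1, h2]
  · let M : ℕ → ℝ := fun ρ => ∑ x with g x = ρ ∧ k ≤ e x, w x
    have hM0 : ∀ ρ, 0 ≤ M ρ := fun ρ => sum_nonneg fun _ _ => hw0 _
    have h1 : (univ.filter fun x : J × Fin L => k ≤ T x.1 ∧ r x.1 k = x.2).image
        (fun x => (g x, q x)) ⊆ (C' k).biUnion fun ρ => {ρ} ×ˢ range (⌊M ρ⌋₊ + 1) := by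
      intro γ hγ
      obtain ⟨x, hx, rfl⟩ := mem_image.1 hγ
      obtain ⟨hx1, hx2⟩ := (mem_filter.1 hx).2
      obtain ⟨h2, h3⟩ := (hge x ⟨k, hx1, hx2⟩).2.2 k hx1 hx2
      refine mem_biUnion.2 ⟨g x, h3, mem_product.2 ⟨mem_singleton_self _, ?_⟩⟩
      rw [mem_range, Nat.lt_succ_iff]
      refine Nat.le_floor ((hq2 x).trans ?_)
      refine sum_le_sum_of_subset_of_nonneg (fun x' hx' => ?_) fun _ _ _ => hw0 _
      obtain ⟨h4, h5⟩ := (mem_filter.1 hx').2
      exact mem_filter.2 ⟨mem_univ _, h4, h2.trans h5⟩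
    have h2 := (card_le_card h1).trans card_biUnion_le
    simp only [card_product, card_singleton, card_range, one_mul] at h2
    have h3 : ((∑ ρ ∈ C' k, (⌊M ρ⌋₊ + 1) : ℕ) : ℝ) ≤ ∑ ρ ∈ C' k, (M ρ + 1) := by
      push_cast
      exact sum_le_sum fun ρ _ => by linarith [Nat.floor_le (hM0 ρ)]
    refine le_trans (by exact_mod_cast h2) (h3.trans ?_)
    rw [sum_add_distrib, sum_const, nsmul_eq_mul, mul_one]
    have h4 : ∑ ρ ∈ C' k, M ρ ≤ 8 * D := by
      calc ∑ ρ ∈ C' k, M ρ = ∑ x, ∑ ρ ∈ C' k, if g x = ρ ∧ k ≤ e x then w x else 0 := by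
            simp only [M, sum_filter]; rw [sum_comm]
        _ = ∑ x, if g x ∈ C' k ∧ k ≤ e x then w x else 0 := by
            refine sum_congr rfl fun x _ => ?_
            simp only [ite_and, sum_ite_eq]
        _ ≤ ∑ j, if k ≤ T j then 8 * n j k else 0 := by
            rw [Fintype.sum_prod_type]
            refine sum_le_sum fun j _ => ?_
            have key : ∀ r0 : Fin L, g (j, r0) ∈ C' k ∧ k ≤ e (j, r0) →
                (∃ k ≤ T j, r j k = r0) → k ≤ T j ∧ (1 / 2 : ℝ) ^ (r0 : ℕ) ≤ 4 * n j k := by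
              intro r0 h5 h6
              obtain ⟨h7, h8, _⟩ := hge (j, r0) h6
              have h9 := hnm j _ k (hC' k _ h5.1) (h5.2.trans h7)
              simp only [pow_add] at h8
              exact ⟨h5.2.trans h7, by linarith⟩
            simp only [w, ← ite_and]
            rw [← sum_filter]
            split_ifs with h5
            · have h6 : 0 < n j k := lt_trans (by positivity) (hr j k h5).1
              refine (geo_small _ (4 * n j k) (by positivity) fun r0 hr0 => ?_).trans (by linarith)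
              obtain ⟨h7, h8⟩ := (mem_filter.1 hr0).2
              exact (key r0 h7 h8).2
            · refine le_of_eq (sum_eq_zero fun r0 hr0 => ?_)
              obtain ⟨h7, h8⟩ := (mem_filter.1 hr0).2
              exact absurd (key r0 h7 h8).1 h5
        _ ≤ 8 * D := by
            rw [← sum_filter, ← mul_sum]
            linarith [hnD k]
    linarith [hC'c k]

theorem exists_level (x : ℝ) (h0 : 0 < x) (h1 : x ≤ 1) :
    ∃ r : ℕ, (1 / 2) ^ (r + 1) < x ∧ x ≤ (1 / 2) ^ r := by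
  obtain ⟨r, h2, h3⟩ := exists_nat_pow_near_of_lt_one h0 h1 (by norm_num : (0 : ℝ) < 1 / 2)
    (by norm_num)
  exact ⟨r, h2, h3⟩

end Vale.Agent.P262
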