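import Vale.Agent.P262.Vec
import Vale.Agent.P262.Chunk

/-!
P262: combining chunks, lags and the test theorem.
-/

namespace Vale.Agent.P262

open Finset

theorem assemble {N : ℕ} {J : Type} [Fintype J] (T : J → ℕ) (n : J → ℕ → ℝ) (B : ℕ → J → ℝ)
    (m : ℕ → ℕ → ℝ) (D : ℝ) (Lo : Fin N → Fin N → ℝ)
    (hn0 : ∀ j k, k ≤ T j → 0 < n j k ∧ n j k ≤ 1)
    (hstep : ∀ j k, k < T j → n j k + B k j ^ 2 / (2 * 10 ^ 9) ≤ n j (k + 1))
    (hrank : ∀ j a b k, a ≤ b → b ≤ k → k ≤ T j →
      n j b - n j a ≤ n j k * ∑ i ∈ Ico a b, m i k)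
    (hm0 : ∀ i k, 0 ≤ m i k) (hmm : ∀ i k, i < k → m i (k + 1) ≤ m i k)
    (hD : ∀ k, ∑ i ∈ range k, m i k ≤ D) (hnD : ∀ k, ∑ j with k ≤ T j, n j k ≤ D)
    (hrow : ∀ i : Fin N, ∑ j with i.val < T j, B i j ^ 2 ≤ 1)
    (hL0 : ∀ k i, k ≤ i → Lo k i = 0) (hL1 : ∀ k, ∑ i, Lo k i ^ 2 ≤ 1 / 10 ^ 9)
    (hL2 : ∀ i, ∑ k, Lo k i ^ 2 ≤ 1 / 10 ^ 9) :
    ∃ η : Fin N → ℝ, (∀ k : ℕ, ∑ j with k ≤ T j, (∑ i : Fin N with i.val < k, η i * B i j) ^ 2
        ≤ (16 * D + 1) * (10 ^ 10) ^ 2) ∧
      ∀ k, η k - ∑ i, η i * Lo k i = 1 ∨ η k - ∑ i, η i * Lo k i = -1 := by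
  classical
  have hex : ∀ j k, ∃ r : ℕ, k ≤ T j → (1 / 2) ^ (r + 1) < n j k ∧ n j k ≤ (1 / 2) ^ r := by
    intro j k
    by_cases h : k ≤ T j
    · obtain ⟨r, hr⟩ := exists_level _ (hn0 j k h).1 (hn0 j k h).2
      exact ⟨r, fun _ => hr⟩
    · exact ⟨0, fun h' => absurd h' h⟩
  choose r hr using hex
  have hnm : ∀ j k k', k ≤ k' → k' ≤ T j → n j k ≤ n j k' := by
    intro j k k' hkk
    induction k', hkk using Nat.le_induction with
    | base => exact fun _ => le_rfl
    | succ k' _ ih =>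
      intro h
      have h1 := hstep j k' (by omega)
      have h2 : 0 ≤ B k' j ^ 2 / (2 * 10 ^ 9) := by positivity
      linarith [ih (by omega)]
  have hra : ∀ j k k', k ≤ k' → k' ≤ T j → r j k' ≤ r j k := by
    intro j k k' hkk h
    by_contra hc
    have h1 : (1 / 2 : ℝ) ^ (r j k') ≤ (1 / 2) ^ (r j k + 1) :=
      pow_le_pow_of_le_one (by norm_num) (by norm_num) (by omega)
    linarith [(hr j k (hkk.trans h)).1, (hr j k' h).2, hnm j k k' hkk h]
  obtain ⟨L, hL⟩ : ∃ L : ℕ, ∀ j k, k ≤ T j → r j k < L :=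
    ⟨univ.sup (fun j => r j 0) + 1, fun j k h => Nat.lt_succ_of_le
      ((hra j 0 k (Nat.zero_le _) h).trans (le_sup (f := fun j => r j 0) (mem_univ j)))⟩
  obtain ⟨ch, hch1, hch2⟩ := chunks T n r m D hr hnm hrank hm0 hmm hD hnD L
  have hmass : ∀ j s, ∑ i : Fin N with i.val < T j ∧ r j (i.val + 1) = s, B i.val j ^ 2 ≤
      2 * 10 ^ 9 * (1 / 2) ^ s := by
    intro j s
    rcases (univ.filter fun i : Fin N => i.val < T j ∧ r j (i.val + 1) = s).eq_empty_or_nonempty
      with h | h
    · rw [h, sum_empty]; positivity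
    obtain ⟨i0, hi0, hmax⟩ := exists_max_image _ (fun i : Fin N => i.val) h
    obtain ⟨h1, h2⟩ := (mem_filter.1 hi0).2
    have h3 : ∑ i : Fin N with i.val < T j ∧ r j (i.val + 1) = s, B i.val j ^ 2 ≤
        ∑ i ∈ range (i0 + 1), B i j ^ 2 := by
      refine le_trans (le_of_eq (sum_map _ Fin.valEmbedding (fun i => B i j ^ 2)).symm) ?_
      refine sum_le_sum_of_subset_of_nonneg (fun i hi => ?_) fun _ _ _ => sq_nonneg _
      obtain ⟨i', hi', rfl⟩ := mem_map.1 hi
      exact mem_range.2 (Nat.lt_succ_of_le (hmax i' hi'))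
    have h4 : ∑ i ∈ range (i0 + 1), B i j ^ 2 ≤
        ∑ i ∈ range (i0 + 1), 2 * 10 ^ 9 * (n j (i + 1) - n j i) := by
      refine sum_le_sum fun i hi => ?_
      have := hstep j i (by have := mem_range.1 hi; omega)
      linarith
    rw [← mul_sum, sum_range_sub (n j)] at h4
    have h5 := (hr j (i0 + 1) h1).2
    rw [h2] at h5
    linarith [(hn0 j 0 (Nat.zero_le _)).1]
  let a : (univ.image ch) × Fin L → Fin N → EuclideanSpace ℝ (J × Fin L) := fun p i =>
    WithLp.toLp 2 fun x => if (ch x = p.1 ∧ ∃ k ≤ T x.1, r x.1 k = x.2) ∧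
      (i.val < T x.1 ∧ r x.1 (i + 1) = x.2 + p.2) then B i x.1 else 0
  have ha : ∀ p i, ‖a p i‖ ^ 2 = ∑ x, if (ch x = p.1 ∧ ∃ k ≤ T x.1, r x.1 k = x.2) ∧
      (i.val < T x.1 ∧ r x.1 (i + 1) = x.2 + p.2) then B i x.1 ^ 2 else 0 := by
    intro p i
    rw [EuclideanSpace.real_norm_sq_eq]
    refine sum_congr rfl fun x _ => ?_
    simp only [a]
    split_ifs <;> simp
  obtain ⟨η, hη1, hη2⟩ := pref a (fun p => 4 * 10 ^ 9 * (1 / 2) ^ p.2.val)
    (fun p => 10 ^ 14 * (16 / 25) ^ p.2.val) Lo (fun p => by positivity) (fun p => by positivity)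
    (by
      rintro ⟨γ, l⟩
      simp only [ha]
      rw [sum_comm]
      calc _ ≤ ∑ x : J × Fin L, if ch x = γ ∧ ∃ k ≤ T x.1, r x.1 k = x.2 then
            2 * 10 ^ 9 * (1 / 2) ^ l.val * (1 / 2 : ℝ) ^ x.2.val else 0 := by
            refine sum_le_sum fun x _ => ?_
            split_ifs with h
            · simp only [h, true_and]
              rw [← sum_filter]
              refine (hmass _ _).trans (le_of_eq ?_)
              rw [pow_add]; ring
            · simp [h]
        _ ≤ _ := by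
            rw [← sum_filter, ← mul_sum]
            have := mul_le_mul_of_nonneg_left (hch1 γ)
              (by positivity : (0 : ℝ) ≤ 2 * 10 ^ 9 * (1 / 2) ^ l.val)
            linarith)
    (by
      intro i
      rw [Fintype.sum_prod_type, sum_comm]
      have h1 : ∀ l : Fin L, ∑ γ : univ.image ch, ‖a (γ, l) i‖ ^ 2 *
          ((4 * 10 ^ 9 * (1 / 2) ^ l.val) ^ 4 / (10 ^ 14 * (16 / 25) ^ l.val) ^ 5)
          ≤ (4 * 10 ^ 9) ^ 4 / (10 ^ 14) ^ 5 * (2 / 3) ^ l.val := by
        intro l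
        rw [← sum_mul]
        have h2 : ∑ γ : univ.image ch, ‖a (γ, l) i‖ ^ 2 ≤ 1 := by
          simp only [ha]
          rw [sum_comm]
          refine le_trans ?_ (hrow i)
          rw [Fintype.sum_prod_type, sum_filter]
          refine sum_le_sum fun j _ => ?_
          calc _ ≤ ∑ r0 : Fin L, if i.val < T j ∧ r j (i + 1) = r0 + l then B i j ^ 2 else 0 := by
                refine sum_le_sum fun r0 _ => ?_
                rw [sum_eq_single ⟨ch (j, r0), mem_image_of_mem _ (mem_univ _)⟩]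
                · split_ifs with h3 h4
                  · exact le_rfl
                  · exact absurd h3.2 h4
                  · positivity
                  · exact le_rfl
                · intro γ _ hγ
                  rw [if_neg]
                  rintro ⟨⟨h3, _⟩, _⟩
                  exact hγ (Subtype.ext h3.symm)
                · simp
            _ ≤ _ := by
                rw [← sum_filter, sum_const, nsmul_eq_mul]
                split_ifs with h3
                · refine mul_le_of_le_one_left (sq_nonneg _) ?_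
                  have : (univ.filter fun r0 : Fin L =>
                      i.val < T j ∧ r j (i + 1) = r0 + l).card ≤ 1 := by
                    refine card_le_one.2 fun x hx y hy => Fin.ext ?_
                    have := (mem_filter.1 hx).2.2
                    have := (mem_filter.1 hy).2.2
                    omega
                  exact_mod_cast this
                · simp [h3]
        have e : (4 * 10 ^ 9 * (1 / 2 : ℝ) ^ l.val) ^ 4 / (10 ^ 14 * (16 / 25) ^ l.val) ^ 5
            = (4 * 10 ^ 9) ^ 4 / (10 ^ 14) ^ 5 * ((1 / 2) ^ 4 / (16 / 25) ^ 5) ^ l.val := by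
          rw [div_pow ((1 / 2 : ℝ) ^ 4), ← pow_mul (1 / 2 : ℝ), ← pow_mul (16 / 25 : ℝ),
            mul_comm 4 l.val, mul_comm 5 l.val, pow_mul (1 / 2 : ℝ), pow_mul (16 / 25 : ℝ),
            mul_pow (4 * 10 ^ 9 : ℝ), mul_pow (10 ^ 14 : ℝ), mul_div_mul_comm]
        rw [e]
        refine (mul_le_of_le_one_left (by positivity) h2).trans ?_
        exact mul_le_mul_of_nonneg_left (pow_le_pow_left₀ (by positivity) (by norm_num) _)
          (by positivity)
      refine (sum_le_sum fun l _ => h1 l).trans ?_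
      rw [← mul_sum, Fin.sum_univ_eq_sum_range (fun l => (2 / 3 : ℝ) ^ l)]
      have := geo_le (2 / 3) (by norm_num) (by norm_num) L
      norm_num at this ⊢
      linarith)
    hL0 hL1 hL2
  refine ⟨η, fun k => ?_, hη2⟩
  let Y : univ.image ch → EuclideanSpace ℝ (J × Fin L) := fun γ =>
    ∑ l : Fin L, ∑ i : Fin N with i.val < k, η i • a (γ, l) i
  have hY : ∀ γ, ‖Y γ‖ ^ 2 ≤ (10 ^ 10) ^ 2 := by
    intro γ
    refine pow_le_pow_left₀ (norm_nonneg _) ((norm_sum_le _ _).trans ?_) 2
    have h1 : ∀ l : Fin L, ‖∑ i : Fin N with i.val < k, η i • a (γ, l) i‖ ≤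
        7 * 10 ^ 8 * (4 / 5) ^ l.val := by
      intro l
      refine (hη1 (γ, l) k).trans ?_
      rw [mul_assoc 7]
      refine mul_le_mul_of_nonneg_left (Real.sqrt_le_iff.2 ⟨by positivity, ?_⟩) (by norm_num)
      rw [mul_pow, ← pow_mul (4 / 5 : ℝ), mul_comm l.val 2, pow_mul]
      have h2 : (1 / 2 : ℝ) ^ l.val ≤ (16 / 25) ^ l.val :=
        pow_le_pow_left₀ (by positivity) (by norm_num) _
      have h3 : (0 : ℝ) ≤ (16 / 25) ^ l.val := by positivity
      norm_num at h2 ⊢
      linarith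
    refine (sum_le_sum fun l _ => h1 l).trans ?_
    rw [← mul_sum, Fin.sum_univ_eq_sum_range (fun l => (4 / 5 : ℝ) ^ l)]
    have := geo_le (4 / 5) (by norm_num) (by norm_num) L
    norm_num at this ⊢
    linarith
  let ch' : J × Fin L → univ.image ch := fun x => ⟨ch x, mem_image_of_mem _ (mem_univ _)⟩
  let Al := univ.filter fun x : J × Fin L => k ≤ T x.1 ∧ r x.1 k = x.2
  have hXY : ∀ x ∈ Al, ∑ i : Fin N with i.val < k, η i * B i x.1 = Y (ch' x) x := by
    intro x hx
    obtain ⟨h1, h2⟩ := (mem_filter.1 hx).2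
    simp only [Y, WithLp.ofLp_sum, Finset.sum_apply, WithLp.ofLp_smul, Pi.smul_apply, smul_eq_mul]
    rw [sum_comm]
    refine sum_congr rfl fun i hi => ?_
    have h3 := (mem_filter.1 hi).2
    have h4 := hra x.1 (i + 1) k h3 h1
    have h5 := hL x.1 (i + 1) (by omega)
    rw [← mul_sum, sum_eq_single ⟨r x.1 (i + 1) - x.2, by omega⟩]
    · simp only [a, ch']
      rw [if_pos ⟨⟨trivial, k, h1, h2⟩, by omega, by omega⟩]
    · intro l _ hl
      simp only [a]
      rw [if_neg]
      rintro ⟨_, _, h6⟩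
      exact hl (Fin.ext (by simp only; omega))
    · simp
  calc ∑ j with k ≤ T j, (∑ i : Fin N with i.val < k, η i * B i j) ^ 2
      = ∑ x ∈ Al, (∑ i : Fin N with i.val < k, η i * B i x.1) ^ 2 := by
        rw [sum_filter, sum_filter, Fintype.sum_prod_type]
        refine sum_congr rfl fun j _ => ?_
        split_ifs with h
        · rw [sum_eq_single (⟨r j k, hL j k h⟩ : Fin L)]
          · simp [h]
          · intro l _ hl
            rw [if_neg]
            rintro ⟨_, h6⟩
            exact hl (Fin.ext h6.symm)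
          · simp
        · simp [h]
    _ = ∑ x ∈ Al, Y (ch' x) x ^ 2 := sum_congr rfl fun x hx => by rw [hXY x hx]
    _ = ∑ γ ∈ Al.image ch', ∑ x ∈ Al with ch' x = γ, Y (ch' x) x ^ 2 :=
        (sum_fiberwise_of_maps_to (fun x hx => mem_image_of_mem _ hx) _).symm
    _ ≤ ∑ γ ∈ Al.image ch', (10 ^ 10 : ℝ) ^ 2 := by
        refine sum_le_sum fun γ _ => le_trans ?_ (hY γ)
        rw [EuclideanSpace.real_norm_sq_eq,
          sum_congr rfl (g := fun x => Y γ x ^ 2) fun x hx => by rw [(mem_filter.1 hx).2]]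
        exact sum_le_sum_of_subset_of_nonneg (subset_univ _) fun _ _ _ => sq_nonneg _
    _ ≤ _ := by
        rw [sum_const, nsmul_eq_mul]
        refine mul_le_mul_of_nonneg_right (le_trans (le_of_eq ?_) (hch2 k)) (by positivity)
        congr 1
        rw [← card_map (Function.Embedding.subtype _), map_eq_image, image_image]
        rfl

end Vale.Agent.P262
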