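import Vale.Agent.P262.Assemble

/-!
P262: the leaky filter and the signing theorem.
-/

namespace Vale.Agent.P262

open Finset

variable {E : Type} [NormedAddCommGroup E] [InnerProductSpace ℝ E]

/-- one contraction step -/
noncomputable def cop (c : ℝ) (v x : E) : E := x - (c * inner ℝ v x) • v

theorem cop_inner (c : ℝ) (v x y : E) : inner ℝ (cop c v x) y = inner ℝ x (cop c v y) := by
  simp only [cop, inner_sub_left, inner_sub_right, real_inner_smul_left, real_inner_smul_right,
    real_inner_comm v x]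
  ring

theorem cop_norm (c : ℝ) (v x : E) :
    ‖cop c v x‖ ^ 2 = ‖x‖ ^ 2 - (2 * c - c ^ 2 * ‖v‖ ^ 2) * inner ℝ v x ^ 2 := by
  rw [cop, norm_sub_sq_real, real_inner_smul_right, norm_smul, mul_pow, Real.norm_eq_abs, sq_abs,
    real_inner_comm v x]
  ring

theorem cop_zero (c : ℝ) (v : E) : cop c v 0 = 0 := by simp [cop]

/-- forward filter -/
noncomputable def fw (c : ℝ) (v : ℕ → E) (i : ℕ) : ℕ → E
  | 0 => 0
  | k + 1 => cop c (v k) (fw c v i k) + if k = i then v k else 0

/-- backward filter -/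
noncomputable def bw (c : ℝ) (v : ℕ → E) (x : E) : ℕ → ℕ → E
  | 0, _ => x
  | n + 1, k => cop c (v k) (bw c v x n (k + 1))

theorem fw_zero (c : ℝ) (v : ℕ → E) {i k : ℕ} (h : k ≤ i) : fw c v i k = 0 := by
  induction k with
  | zero => rfl
  | succ k ih => rw [fw, ih (by omega), cop_zero, if_neg (by omega), add_zero]

theorem fw_self (c : ℝ) (v : ℕ → E) (i : ℕ) : fw c v i (i + 1) = v i := by
  rw [fw, fw_zero c v le_rfl, cop_zero, if_pos rfl, zero_add]

theorem fw_ne (c : ℝ) (v : ℕ → E) {i k : ℕ} (h : k ≠ i) :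
    fw c v i (k + 1) = cop c (v k) (fw c v i k) := by
  rw [fw, if_neg h, add_zero]

omit [InnerProductSpace ℝ E] in
theorem kap_bd {c : ℝ} (hc0 : 0 < c) (hc1 : c ≤ 1) {v : E} (hv : ‖v‖ ≤ 1) :
    c ≤ 2 * c - c ^ 2 * ‖v‖ ^ 2 ∧ 2 * c - c ^ 2 * ‖v‖ ^ 2 ≤ 2 * c := by
  have h1 : ‖v‖ ^ 2 ≤ 1 := pow_le_one₀ (norm_nonneg _) hv
  have h2 := mul_le_mul_of_nonneg_left h1 (sq_nonneg c)
  constructor
  · nlinarith
  · have : 0 ≤ c ^ 2 * ‖v‖ ^ 2 := by positivity
    linarith

theorem cov {c : ℝ} (hc0 : 0 < c) (hc1 : c ≤ 1) (v : ℕ → E) (hv : ∀ i, ‖v i‖ ≤ 1) (M k : ℕ) :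
    ∀ x : E, c * ∑ i ∈ range M, inner ℝ x (fw c v i k) ^ 2 ≤ ‖x‖ ^ 2 := by
  induction k with
  | zero => intro x; simp [fw]
  | succ k ih =>
    intro x
    have h1 : ∑ i ∈ range M, inner ℝ x (fw c v i (k + 1)) ^ 2 ≤
        ∑ i ∈ range M, inner ℝ (cop c (v k) x) (fw c v i k) ^ 2 + inner ℝ (v k) x ^ 2 := by
      have h2 : ∑ i ∈ range M, (if i = k then inner ℝ (v k) x ^ 2 else 0) ≤
          inner ℝ (v k) x ^ 2 := by
        rw [sum_ite_eq']
        split_ifs
        · exact le_rfl
        · positivity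
      refine le_trans (le_of_eq ?_) (add_le_add le_rfl h2)
      rw [← sum_add_distrib]
      refine sum_congr rfl fun i _ => ?_
      by_cases h : i = k
      · subst h
        rw [fw_self, fw_zero c v le_rfl, if_pos rfl, real_inner_comm]
        simp
      · rw [fw_ne c v (Ne.symm h), if_neg h, cop_inner, add_zero]
    have h3 := ih (cop c (v k) x)
    rw [cop_norm] at h3
    have h4 := mul_le_mul_of_nonneg_right (kap_bd hc0 hc1 (hv k)).1 (sq_nonneg (inner ℝ (v k) x))
    nlinarith [mul_le_mul_of_nonneg_left h1 hc0.le]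

theorem signing_nat {d : ℕ} (hd : 1 ≤ d) (b : OrthonormalBasis (Fin d) ℝ E) (N : ℕ) (v : ℕ → E)
    (hv : ∀ i, ‖v i‖ ≤ 1) : ∃ ε : Fin N → ℝ, (∀ i, ε i = 1 ∨ ε i = -1) ∧
      ∀ k ≤ N, ‖∑ i : Fin N with i.val < k, ε i • v i‖ ^ 2 ≤ 33 * d * (10 ^ 10) ^ 2 := by
  classical
  obtain ⟨c, hc⟩ : ∃ c : ℝ, c = 1 / 10 ^ 9 := ⟨_, rfl⟩
  have hc0 : 0 < c := by rw [hc]; norm_num
  have hc1 : c ≤ 1 / 2 := by rw [hc]; norm_num
  let κ : ℕ → ℝ := fun k => 2 * c - c ^ 2 * ‖v k‖ ^ 2
  have hκ : ∀ k, c ≤ κ k ∧ κ k ≤ 2 * c := fun k => kap_bd hc0 (by linarith) (hv k)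
  have hκ0 : ∀ k, 0 ≤ κ k := fun k => hc0.le.trans (hκ k).1
  let T : Fin N ⊕ Fin d → ℕ := Sum.elim Fin.val fun _ => N
  let ω : Fin N ⊕ Fin d → E := Sum.elim (fun j => √(κ j) • v j) b
  let w : Fin N ⊕ Fin d → ℕ → E := fun j k => bw c v (ω j) (T j - k) k
  have hwT : ∀ j, w j (T j) = ω j := fun j => by simp only [w, Nat.sub_self, bw]
  have hw : ∀ j k, k < T j → w j k = cop c (v k) (w j (k + 1)) := by
    intro j k h
    simp only [w]
    rw [show T j - k = T j - (k + 1) + 1 by omega, bw]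
  let B : ℕ → Fin N ⊕ Fin d → ℝ := fun i j => inner ℝ (v i) (w j (i + 1))
  have hB : ∀ i j k, i < k → k ≤ T j → inner ℝ (fw c v i k) (w j k) = B i j := by
    intro i j k hik
    induction k, hik using Nat.le_induction with
    | base => intro _; rw [fw_self]
    | succ k hk ih =>
      intro h
      rw [fw_ne c v (by omega), cop_inner, ← hw j k h, ih (by omega)]
  have hpar : ∀ k ≤ N, ∀ x : E, ∑ j with k ≤ T j, inner ℝ x (w j k) ^ 2 = ‖x‖ ^ 2 := by
    intro k hk
    induction hk using Nat.decreasingInduction with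
    | self =>
      intro x
      rw [sum_filter, Fintype.sum_sum_type, ← b.sum_sq_inner_left x, sum_eq_zero, zero_add]
      · refine sum_congr rfl fun t _ => ?_
        have := hwT (Sum.inr t)
        simp only [T, ω, Sum.elim_inr] at this
        simp [T, this]
      · intro j _
        exact if_neg (not_le.2 j.2)
    | of_succ k hk ih =>
      intro x
      have e : (univ.filter fun j => k ≤ T j) =
          insert (Sum.inl ⟨k, hk⟩) (univ.filter fun j => k + 1 ≤ T j) := by
        ext j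
        rcases j with j | j
        · simp only [T, mem_filter, mem_univ, true_and, Sum.elim_inl, mem_insert, Sum.inl.injEq,
            Fin.ext_iff]
          omega
        · simp only [T, mem_filter, mem_univ, true_and, Sum.elim_inr, mem_insert, reduceCtorEq,
            false_or]
          omega
      rw [e, sum_insert (by simp [T])]
      have h1 := hwT (Sum.inl ⟨k, hk⟩)
      simp only [T, ω, Sum.elim_inl] at h1
      have h2 := ih (cop c (v k) x)
      rw [cop_norm] at h2
      rw [h1, real_inner_smul_right, mul_pow, Real.sq_sqrt (hκ0 k), real_inner_comm,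
        sum_congr rfl (g := fun j => inner ℝ (cop c (v k) x) (w j (k + 1)) ^ 2)
          fun j hj => by rw [hw j k (mem_filter.1 hj).2, cop_inner], h2]
      ring
  have hstep : ∀ j k, k < T j → ‖w j (k + 1)‖ ^ 2 = ‖w j k‖ ^ 2 + κ k * B k j ^ 2 := by
    intro j k h
    rw [hw j k h, cop_norm]
    ring
  have hw1 : ∀ j k, k ≤ T j → ‖w j k‖ ^ 2 ≤ 1 := by
    intro j k hk
    induction hk using Nat.decreasingInduction with
    | self =>
      rw [hwT]
      rcases j with j | j
      · simp only [ω, Sum.elim_inl]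
        rw [norm_smul, mul_pow, Real.norm_eq_abs, sq_abs, Real.sq_sqrt (hκ0 _)]
        exact mul_le_one₀ (by linarith [(hκ j).2]) (sq_nonneg _)
          (pow_le_one₀ (norm_nonneg _) (hv _))
      · simp [ω]
    | of_succ k hk ih =>
      have := hstep j k hk
      have : 0 ≤ κ k * B k j ^ 2 := mul_nonneg (hκ0 k) (sq_nonneg _)
      linarith
  have hd' : (1 : ℝ) ≤ d := by exact_mod_cast hd
  have hrow : ∀ i : Fin N, ∑ j with i.val < T j, B i j ^ 2 ≤ 1 :=
    fun i => (hpar (i + 1) i.2 (v i)).le.trans (pow_le_one₀ (norm_nonneg _) (hv _))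
  obtain ⟨η, hη1, hη2⟩ := assemble T (fun j k => (‖w j k‖ ^ 2 + 1 / (N + d)) / 2) B
    (fun i k => κ i * ‖fw c v i k‖ ^ 2) (2 * d) (fun k i => c * inner ℝ (v k) (fw c v i k))
    (by
      intro j k h
      have h1 := hw1 j k h
      have h2 : (1 : ℝ) / (N + d) ≤ 1 := div_le_one_of_le₀ (by linarith [Nat.cast_nonneg (α := ℝ) N])
        (by positivity)
      exact ⟨by positivity, by linarith⟩)
    (by
      intro j k h
      have h1 := mul_le_mul_of_nonneg_right (hκ k).1 (sq_nonneg (B k j))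
      rw [hstep j k h]
      rw [hc] at h1
      linarith)
    (by
      intro j a b' k hab hbk hk
      have h1 : ‖w j b'‖ ^ 2 - ‖w j a‖ ^ 2 = ∑ i ∈ Ico a b', κ i * B i j ^ 2 := by
        rw [← sum_Ico_sub (fun i => ‖w j i‖ ^ 2) hab]
        refine sum_congr rfl fun i hi => ?_
        rw [hstep j i (by have := (mem_Ico.1 hi).2; omega)]
        ring
      have h2 : ∑ i ∈ Ico a b', κ i * B i j ^ 2 ≤
          ‖w j k‖ ^ 2 * ∑ i ∈ Ico a b', κ i * ‖fw c v i k‖ ^ 2 := by
        rw [mul_sum]
        refine sum_le_sum fun i hi => ?_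
        rw [← hB i j k (by have := (mem_Ico.1 hi).2; omega) hk]
        have h3 := sq_le_sq.2 ((abs_real_inner_le_norm (fw c v i k) (w j k)).trans
          (le_abs_self _))
        nlinarith [mul_le_mul_of_nonneg_left h3 (hκ0 i)]
      have h4 : 0 ≤ 1 / ((N : ℝ) + d) * ∑ i ∈ Ico a b', κ i * ‖fw c v i k‖ ^ 2 :=
        mul_nonneg (by positivity) (sum_nonneg fun i _ => mul_nonneg (hκ0 i) (sq_nonneg _))
      nlinarith)
    (fun i k => mul_nonneg (hκ0 i) (sq_nonneg _))
    (by
      intro i k h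
      refine mul_le_mul_of_nonneg_left ?_ (hκ0 i)
      rw [fw_ne c v (by omega), cop_norm]
      have := mul_nonneg (hκ0 k) (sq_nonneg (inner ℝ (v k) (fw c v i k)))
      linarith)
    (by
      intro k
      calc ∑ i ∈ range k, κ i * ‖fw c v i k‖ ^ 2 ≤ ∑ i ∈ range k, 2 * c * ‖fw c v i k‖ ^ 2 :=
            sum_le_sum fun i _ => mul_le_mul_of_nonneg_right (hκ i).2 (sq_nonneg _)
        _ = 2 * ∑ t, c * ∑ i ∈ range k, inner ℝ (b t) (fw c v i k) ^ 2 := by
            rw [← mul_sum, ← mul_sum, sum_comm]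
            simp only [b.sum_sq_inner_right]
            ring
        _ ≤ 2 * ∑ t : Fin d, (1 : ℝ) := by
            refine mul_le_mul_of_nonneg_left (sum_le_sum fun t _ => ?_) (by norm_num)
            simpa using cov hc0 (by linarith) v hv k k (b t)
        _ = 2 * d := by simp)
    (by
      intro k
      by_cases hk : k ≤ N
      · rw [← sum_div, sum_add_distrib]
        have h1 : ∑ j with k ≤ T j, ‖w j k‖ ^ 2 = d := by
          simp only [← b.sum_sq_inner_right]
          rw [sum_comm]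
          simp [hpar k hk]
        have h2 : ∑ j with k ≤ T j, 1 / ((N : ℝ) + d) ≤ ∑ j : Fin N ⊕ Fin d, 1 / ((N : ℝ) + d) :=
          sum_le_sum_of_subset_of_nonneg (subset_univ _) fun _ _ _ => by positivity
        have h3 : ∑ j : Fin N ⊕ Fin d, 1 / ((N : ℝ) + d) = 1 := by
          rw [sum_const, card_univ, Fintype.card_sum, Fintype.card_fin, Fintype.card_fin,
            nsmul_eq_mul]
          push_cast
          field_simp
        linarith
      · rw [sum_eq_zero]
        · positivity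
        · intro j hj
          have := (mem_filter.1 hj).2
          rcases j with j | j
          · simp only [T, Sum.elim_inl] at this
            omega
          · simp only [T, Sum.elim_inr] at this
            omega)
    hrow
    (by
      intro k i h
      rw [fw_zero c v h]
      simp)
    (by
      intro k
      have h1 := cov hc0 (by linarith) v hv N k (v k)
      rw [← Fin.sum_univ_eq_sum_range (fun i => inner ℝ (v k) (fw c v i k) ^ 2)] at h1
      have h2 : ‖v k‖ ^ 2 ≤ 1 := pow_le_one₀ (norm_nonneg _) (hv _)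
      simp only [mul_pow]
      rw [← mul_sum, ← hc]
      nlinarith [mul_le_mul_of_nonneg_left (h1.trans h2) hc0.le])
    (by
      intro i
      have h1 := hrow i
      rw [sum_filter, Fintype.sum_sum_type] at h1
      have h2 : ∑ k : Fin N, c * inner ℝ (v k) (fw c v i k) ^ 2 ≤
          ∑ k : Fin N, if i.val < T (Sum.inl k) then B i (Sum.inl k) ^ 2 else 0 := by
        refine sum_le_sum fun k _ => ?_
        split_ifs with h
        · rw [← hB i (Sum.inl k) (T (Sum.inl k)) h le_rfl, hwT]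
          simp only [T, ω, Sum.elim_inl]
          rw [real_inner_smul_right, mul_pow, Real.sq_sqrt (hκ0 _), real_inner_comm]
          exact mul_le_mul_of_nonneg_right (hκ k).1 (sq_nonneg _)
        · simp only [T, Sum.elim_inl] at h
          rw [fw_zero c v (not_lt.1 h)]
          simp
      have h3 : 0 ≤ ∑ t : Fin d, if i.val < T (Sum.inr t) then B i (Sum.inr t) ^ 2 else 0 :=
        sum_nonneg fun t _ => by split_ifs <;> positivity
      rw [← mul_sum] at h2
      simp only [mul_pow]
      rw [← mul_sum, ← hc]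
      nlinarith [mul_le_mul_of_nonneg_left (h2.trans (by linarith : _ ≤ (1 : ℝ))) hc0.le])
  refine ⟨fun k => η k - ∑ i, η i * (c * inner ℝ (v k) (fw c v i k)), hη2, fun k hk => ?_⟩
  have hx : ∀ k ≤ N, ∑ i : Fin N with i.val < k,
      (η i - ∑ i', η i' * (c * inner ℝ (v i) (fw c v i' i))) • v i = ∑ i, η i • fw c v i k := by
    intro k
    induction k with
    | zero => intro _; simp [fw]
    | succ k ih =>
      intro hk
      have e : (univ.filter fun i : Fin N => i.val < k + 1) =
          insert ⟨k, hk⟩ (univ.filter fun i : Fin N => i.val < k) := by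
        ext i
        simp only [mem_filter, mem_univ, true_and, mem_insert, Fin.ext_iff]
        omega
      rw [e, sum_insert (by simp), ih (by omega)]
      simp only [fw, cop, smul_add, smul_sub, sum_add_distrib, sum_sub_distrib, sub_smul, sum_smul,
        mul_smul]
      rw [sum_eq_single (⟨k, hk⟩ : Fin N) (f := fun i => η i • if k = i.val then v k else 0)
        (fun i _ hi => by rw [if_neg (fun h => hi (Fin.ext h.symm)), smul_zero]) (by simp)]
      simp only [if_true]
      abel
  rw [hx k hk, ← hpar k hk]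
  refine le_trans (le_of_eq (sum_congr rfl fun j hj => ?_)) ((hη1 k).trans (by nlinarith))
  congr 1
  rw [sum_inner, sum_filter]
  refine sum_congr rfl fun i _ => ?_
  rw [real_inner_smul_left]
  split_ifs with h
  · rw [hB i j k h (mem_filter.1 hj).2]
  · rw [fw_zero c v (not_lt.1 h)]
    simp

theorem signing {d : ℕ} (hd : 1 ≤ d) (N : ℕ) (v : Fin N → EuclideanSpace ℝ (Fin d))
    (hv : ∀ i, ‖v i‖ ≤ 1) : ∃ ε : Fin N → ℝ, (∀ i, ε i = 1 ∨ ε i = -1) ∧
      ∀ k ≤ N, ‖∑ i : Fin N with i.val < k, ε i • v i‖ ≤ 6 * 10 ^ 10 * √d := by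
  obtain ⟨ε, h1, h2⟩ := signing_nat hd (EuclideanSpace.basisFun (Fin d) ℝ) N
    (fun i => if h : i < N then v ⟨i, h⟩ else 0)
    (fun i => by split_ifs; exacts [hv _, by simp])
  refine ⟨ε, h1, fun k hk => le_of_sq_le_sq ?_ (by positivity)⟩
  have h3 := h2 k hk
  simp only [Fin.is_lt, dif_pos, Fin.eta] at h3
  rw [mul_pow, Real.sq_sqrt (Nat.cast_nonneg d)]
  nlinarith [Nat.cast_nonneg (α := ℝ) d]

end Vale.Agent.P262
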