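import Mathlib

/-!
P262: moment bounds on the integer box, and the randomized rounding curve.
-/

namespace Vale.Agent.P262

open Finset

/-- the integer box -/
noncomputable def box (N H : ℕ) : Finset (Fin N → ℤ) := Fintype.piFinset fun _ => Finset.Icc (-(H : ℤ)) H

variable {N H : ℕ}

theorem mem_box {ξ : Fin N → ℤ} : ξ ∈ box N H ↔ ∀ i, -(H : ℤ) ≤ ξ i ∧ ξ i ≤ H := by
  simp [box]

theorem sq_le_of_box {ξ : Fin N → ℤ} (h : ξ ∈ box N H) (i : Fin N) :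
    (ξ i : ℝ) ^ 2 ≤ (H : ℝ) ^ 2 := by
  obtain ⟨h1, h2⟩ := mem_box.1 h i
  have h1' : -(H : ℝ) ≤ (ξ i : ℝ) := by exact_mod_cast h1
  have h2' : (ξ i : ℝ) ≤ (H : ℝ) := by exact_mod_cast h2
  exact sq_le_sq' h1' h2'

/-- flip one sign -/
def flp (i : Fin N) (ξ : Fin N → ℤ) : Fin N → ℤ := Function.update ξ i (-ξ i)

theorem flp_self (i : Fin N) (ξ : Fin N → ℤ) : flp i ξ i = -ξ i := by simp [flp]

theorem flp_ne {i j : Fin N} (h : j ≠ i) (ξ : Fin N → ℤ) : flp i ξ j = ξ j := by simp [flp, h]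

theorem flp_flp (i : Fin N) (ξ : Fin N → ℤ) : flp i (flp i ξ) = ξ := by
  ext j
  by_cases h : j = i
  · subst h; simp [flp_self]
  · simp [flp_ne h]

theorem flp_mem (i : Fin N) {ξ : Fin N → ℤ} (h : ξ ∈ box N H) : flp i ξ ∈ box N H := by
  rw [mem_box] at h ⊢
  intro j
  by_cases hj : j = i
  · subst hj; rw [flp_self]; have := h j; omega
  · rw [flp_ne hj]; exact h j

theorem sum_odd (i : Fin N) (G : (Fin N → ℤ) → ℝ) (hG : ∀ ξ, G (flp i ξ) = -G ξ) :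
    ∑ ξ ∈ box N H, G ξ = 0 := by
  have h : ∑ ξ ∈ box N H, G (flp i ξ) = ∑ ξ ∈ box N H, G ξ :=
    Finset.sum_nbij' (flp i) (flp i) (fun _ h => flp_mem i h) (fun _ h => flp_mem i h)
      (fun ξ _ => flp_flp i ξ) (fun ξ _ => flp_flp i ξ) (fun _ _ => rfl)
  simp only [hG, sum_neg_distrib] at h
  linarith

/-- generic step: adding `ξ i * L` to `Q`, second moment -/
theorem step2 (i : Fin N) (Q L : (Fin N → ℤ) → ℝ) (hQ : ∀ ξ, Q (flp i ξ) = Q ξ)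
    (hL : ∀ ξ, L (flp i ξ) = L ξ) :
    ∑ ξ ∈ box N H, (Q ξ + ξ i * L ξ) ^ 2 ≤
      ∑ ξ ∈ box N H, Q ξ ^ 2 + (H : ℝ) ^ 2 * ∑ ξ ∈ box N H, L ξ ^ 2 := by
  have h := sum_odd (H := H) i (fun ξ => 2 * Q ξ * (ξ i * L ξ))
    (fun ξ => by simp only [hQ, hL, flp_self]; push_cast; ring)
  rw [mul_sum, ← sum_add_distrib, ← add_zero (∑ ξ ∈ box N H, (Q ξ ^ 2 + _)), ← h,
    ← sum_add_distrib]
  refine sum_le_sum fun ξ hξ => ?_
  have := mul_le_mul_of_nonneg_right (sq_le_of_box hξ i) (sq_nonneg (L ξ))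
  nlinarith

/-- generic step: fourth moment -/
theorem step4 (i : Fin N) (Q L : (Fin N → ℤ) → ℝ) (hQ : ∀ ξ, Q (flp i ξ) = Q ξ)
    (hL : ∀ ξ, L (flp i ξ) = L ξ) :
    ∑ ξ ∈ box N H, (Q ξ + ξ i * L ξ) ^ 4 ≤
      ∑ ξ ∈ box N H, Q ξ ^ 4 + 6 * (H : ℝ) ^ 2 * ∑ ξ ∈ box N H, Q ξ ^ 2 * L ξ ^ 2
        + (H : ℝ) ^ 4 * ∑ ξ ∈ box N H, L ξ ^ 4 := by
  have h := sum_odd (H := H) i
    (fun ξ => 4 * Q ξ ^ 3 * (ξ i * L ξ) + 4 * Q ξ * (ξ i * L ξ) ^ 3)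
    (fun ξ => by simp only [hQ, hL, flp_self]; push_cast; ring)
  rw [mul_sum, mul_sum, ← sum_add_distrib, ← sum_add_distrib,
    ← add_zero (∑ ξ ∈ box N H, (Q ξ ^ 4 + _ + _)), ← h, ← sum_add_distrib]
  refine sum_le_sum fun ξ hξ => ?_
  have h1 := sq_le_of_box hξ i
  have h2 := mul_le_mul_of_nonneg_right h1 (by positivity : 0 ≤ Q ξ ^ 2 * L ξ ^ 2)
  have h3 : (ξ i : ℝ) ^ 4 ≤ (H : ℝ) ^ 4 := by
    have := pow_le_pow_left₀ (sq_nonneg _) h1 2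
    rwa [← pow_mul, ← pow_mul] at this
  have h4 := mul_le_mul_of_nonneg_right h3 (by positivity : 0 ≤ L ξ ^ 4)
  nlinarith

theorem lin_flp (c : Fin N → ℝ) {s : Finset (Fin N)} {i : Fin N} (hi : i ∉ s) (ξ : Fin N → ℤ) :
    ∑ j ∈ s, (flp i ξ j : ℝ) * c j = ∑ j ∈ s, (ξ j : ℝ) * c j :=
  sum_congr rfl fun j hj => by rw [flp_ne (ne_of_mem_of_not_mem hj hi)]

theorem lin2 (c : Fin N → ℝ) (s : Finset (Fin N)) :
    ∑ ξ ∈ box N H, (∑ j ∈ s, (ξ j : ℝ) * c j) ^ 2 ≤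
      (box N H).card * ((H : ℝ) ^ 2 * ∑ j ∈ s, c j ^ 2) := by
  induction s using Finset.induction_on with
  | empty => simp
  | insert i s hi ih =>
    have := step2 (H := H) i (fun ξ => ∑ j ∈ s, (ξ j : ℝ) * c j) (fun _ => c i)
      (lin_flp c hi) (fun _ => rfl)
    simp only [sum_insert hi, sum_const, nsmul_eq_mul] at this ⊢
    simp only [add_comm ((_ : ℤ) * c i : ℝ)]
    nlinarith

theorem lin4 (c : Fin N → ℝ) (s : Finset (Fin N)) :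
    ∑ ξ ∈ box N H, (∑ j ∈ s, (ξ j : ℝ) * c j) ^ 4 ≤
      (box N H).card * (3 * ((H : ℝ) ^ 2 * ∑ j ∈ s, c j ^ 2) ^ 2) := by
  induction s using Finset.induction_on with
  | empty => simp
  | insert i s hi ih =>
    have := step4 (H := H) i (fun ξ => ∑ j ∈ s, (ξ j : ℝ) * c j) (fun _ => c i)
      (lin_flp c hi) (fun _ => rfl)
    have h2 := lin2 (H := H) c s
    simp only [sum_insert hi, sum_const, nsmul_eq_mul, ← sum_mul] at this ⊢
    simp only [add_comm ((_ : ℤ) * c i : ℝ)]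
    have h3 := mul_le_mul_of_nonneg_left h2 (by positivity : 0 ≤ 6 * (H : ℝ) ^ 2 * c i ^ 2)
    have h4 : 0 ≤ ((box N H).card : ℝ) * ((H : ℝ) ^ 4 * c i ^ 4) := by positivity
    nlinarith

section quad

variable {F : Type} [NormedAddCommGroup F] [InnerProductSpace ℝ F]

theorem quad4 (A : Fin N → F) (op : ℝ) (hop0 : 0 ≤ op)
    (hop : ∀ i, ∑ j, (inner ℝ (A i) (A j)) ^ 2 ≤ op * ‖A i‖ ^ 2) (s : Finset (Fin N)) :
    ∑ ξ ∈ box N H, (‖∑ j ∈ s, (ξ j : ℝ) • A j‖ ^ 2 - ∑ j ∈ s, (ξ j : ℝ) ^ 2 * ‖A j‖ ^ 2) ^ 4 ≤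
      (box N H).card * (24 * (H : ℝ) ^ 4 * op * ∑ j ∈ s, ‖A j‖ ^ 2) ^ 2 := by
  induction s using Finset.induction_on with
  | empty => simp
  | insert i s hi ih =>
    set Q : (Fin N → ℤ) → ℝ := fun ξ =>
      ‖∑ j ∈ s, (ξ j : ℝ) • A j‖ ^ 2 - ∑ j ∈ s, (ξ j : ℝ) ^ 2 * ‖A j‖ ^ 2 with hQ
    set L : (Fin N → ℤ) → ℝ := fun ξ => ∑ j ∈ s, (ξ j : ℝ) * (2 * inner ℝ (A i) (A j)) with hL
    have hQf : ∀ ξ, Q (flp i ξ) = Q ξ := by
      intro ξ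
      simp only [hQ]
      rw [sum_congr rfl (g := fun j => (ξ j : ℝ) • A j)
          fun j hj => by rw [flp_ne (ne_of_mem_of_not_mem hj hi)],
        sum_congr rfl (g := fun j => (ξ j : ℝ) ^ 2 * ‖A j‖ ^ 2)
          fun j hj => by rw [flp_ne (ne_of_mem_of_not_mem hj hi)]]
    have h1 := step4 (H := H) i Q L hQf (lin_flp _ hi)
    have e : ∀ ξ : Fin N → ℤ, ‖∑ j ∈ insert i s, (ξ j : ℝ) • A j‖ ^ 2 -
        ∑ j ∈ insert i s, (ξ j : ℝ) ^ 2 * ‖A j‖ ^ 2 = Q ξ + ξ i * L ξ := by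
      intro ξ
      rw [sum_insert hi, sum_insert hi, norm_add_sq_real, norm_smul, mul_pow, Real.norm_eq_abs,
        sq_abs, real_inner_smul_left, inner_sum]
      simp only [hQ, hL, real_inner_smul_right, mul_sum]
      rw [show ∑ j ∈ s, (ξ i : ℝ) * ((ξ j : ℝ) * (2 * inner ℝ (A i) (A j))) =
        ∑ j ∈ s, 2 * ((ξ i : ℝ) * ((ξ j : ℝ) * inner ℝ (A i) (A j))) from
        sum_congr rfl fun j _ => by ring]
      ring
    simp only [e]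
    set B : ℝ := ((box N H).card : ℝ) with hB
    have hB0 : 0 ≤ B := by positivity
    set R : ℝ := 24 * (H : ℝ) ^ 4 * op * ∑ j ∈ s, ‖A j‖ ^ 2 with hR
    have hR0 : 0 ≤ R := by positivity
    set w : ℝ := op * ‖A i‖ ^ 2 with hw
    have hw0 : 0 ≤ w := by positivity
    have h2 : ∑ ξ ∈ box N H, L ξ ^ 4 ≤ B * (8 * (H : ℝ) ^ 2 * w) ^ 2 := by
      refine (lin4 _ s).trans (mul_le_mul_of_nonneg_left ?_ hB0)
      have h3 : ∑ j ∈ s, (2 * inner ℝ (A i) (A j)) ^ 2 ≤ 4 * w := by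
        calc ∑ j ∈ s, (2 * inner ℝ (A i) (A j)) ^ 2 ≤ ∑ j, (2 * inner ℝ (A i) (A j)) ^ 2 :=
              sum_le_sum_of_subset_of_nonneg (subset_univ _) fun _ _ _ => sq_nonneg _
          _ = 4 * ∑ j, (inner ℝ (A i) (A j)) ^ 2 := by
              rw [mul_sum]; exact sum_congr rfl fun j _ => by ring
          _ ≤ _ := by linarith [hop i]
      have h4 : ((H : ℝ) ^ 2 * ∑ j ∈ s, (2 * inner ℝ (A i) (A j)) ^ 2) ^ 2
          ≤ ((H : ℝ) ^ 2 * (4 * w)) ^ 2 := by gcongr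
      nlinarith [sq_nonneg ((H : ℝ) ^ 2 * w)]
    have h5 : ∑ ξ ∈ box N H, Q ξ ^ 2 * L ξ ^ 2 ≤ B * R * (8 * (H : ℝ) ^ 2 * w) := by
      have h6 := sum_mul_sq_le_sq_mul_sq (box N H) (fun ξ => Q ξ ^ 2) (fun ξ => L ξ ^ 2)
      simp only [← pow_mul] at h6
      refine le_of_sq_le_sq ?_ (by positivity)
      calc _ ≤ _ := h6
        _ ≤ (B * R ^ 2) * (B * (8 * (H : ℝ) ^ 2 * w) ^ 2) :=
          mul_le_mul ih h2 (sum_nonneg fun _ _ => Even.pow_nonneg (by decide) _) (by positivity)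
        _ = _ := by ring
    rw [sum_insert hi]
    have h7 := mul_le_mul_of_nonneg_left h5 (by positivity : 0 ≤ 6 * (H : ℝ) ^ 2)
    have h8 := mul_le_mul_of_nonneg_left h2 (by positivity : 0 ≤ (H : ℝ) ^ 4)
    have h9 : 0 ≤ B * ((H : ℝ) ^ 4 * w) ^ 2 := by positivity
    have e2 : 24 * (H : ℝ) ^ 4 * op * (‖A i‖ ^ 2 + ∑ j ∈ s, ‖A j‖ ^ 2)
        = R + 24 * (H : ℝ) ^ 4 * w := by rw [hR, hw]; ring
    rw [e2]
    nlinarith

open Classical in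
theorem tail (A : Fin N → F) (op μ t : ℝ) (hop0 : 0 ≤ op) (ht : 0 < t)
    (hop : ∀ i, ∑ j, (inner ℝ (A i) (A j)) ^ 2 ≤ op * ‖A i‖ ^ 2) (hμ : ∑ j, ‖A j‖ ^ 2 ≤ μ) :
    ∑ ξ ∈ box N H, (if (H : ℝ) ^ 2 * μ + t < ‖∑ j, (ξ j : ℝ) • A j‖ ^ 2 then (1 : ℝ) else 0) ≤
      (box N H).card * (24 * (H : ℝ) ^ 4 * op * μ) ^ 2 / t ^ 4 := by
  rw [le_div_iff₀ (by positivity), sum_mul]
  refine le_trans (sum_le_sum fun ξ hξ => ?_) ((quad4 (H := H) A op hop0 hop univ).trans ?_)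
  · split_ifs with h
    · have h1 : ∑ j, (ξ j : ℝ) ^ 2 * ‖A j‖ ^ 2 ≤ (H : ℝ) ^ 2 * μ := by
        refine le_trans ?_ (mul_le_mul_of_nonneg_left hμ (by positivity))
        rw [mul_sum]
        exact sum_le_sum fun j _ => mul_le_mul_of_nonneg_right (sq_le_of_box hξ j) (sq_nonneg _)
      rw [one_mul]
      exact pow_le_pow_left₀ ht.le (by linarith) 4
    · rw [zero_mul]; positivity
  · gcongr

end quad

/-- the randomized rounding amplitude -/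
noncomputable def rnd (y : ℝ) (n : ℤ) : ℝ :=
  if n = ⌊y⌋ then Real.cos (Real.pi / 2 * Int.fract y)
  else if n = ⌊y⌋ + 1 then Real.sin (Real.pi / 2 * Int.fract y) else 0

theorem ang_mem (y : ℝ) : 0 ≤ Real.pi / 2 * Int.fract y ∧ Real.pi / 2 * Int.fract y ≤ Real.pi / 2 := by
  have h1 := Int.fract_nonneg y
  have h2 := (Int.fract_lt_one y).le
  have := Real.pi_pos
  constructor
  · positivity
  · nlinarith

theorem cos_ang (y : ℝ) : 0 ≤ Real.cos (Real.pi / 2 * Int.fract y) :=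
  Real.cos_nonneg_of_neg_pi_div_two_le_of_le (by linarith [(ang_mem y).1, Real.pi_pos])
    (ang_mem y).2

theorem sin_ang (y : ℝ) : 0 ≤ Real.sin (Real.pi / 2 * Int.fract y) :=
  Real.sin_nonneg_of_nonneg_of_le_pi (ang_mem y).1 (by linarith [(ang_mem y).2, Real.pi_pos])

theorem rnd_nonneg (y : ℝ) (n : ℤ) : 0 ≤ rnd y n := by
  unfold rnd
  split_ifs
  · exact cos_ang y
  · exact sin_ang y
  · exact le_rfl

theorem rnd_ne {y : ℝ} {n : ℤ} (h : rnd y n ≠ 0) : (y - n) ^ 2 ≤ 1 := by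
  have h1 := Int.floor_le y
  have h2 := Int.lt_floor_add_one y
  unfold rnd at h
  split_ifs at h with h3 h4
  · subst h3; nlinarith
  · subst h4; push_cast; nlinarith
  · exact absurd rfl h

theorem sum_rnd (y : ℝ) (s : Finset ℤ) (h1 : ⌊y⌋ ∈ s) (h2 : ⌊y⌋ + 1 ∈ s) (G : ℤ → ℝ) :
    ∑ n ∈ s, rnd y n * G n = Real.cos (Real.pi / 2 * Int.fract y) * G ⌊y⌋ +
      Real.sin (Real.pi / 2 * Int.fract y) * G (⌊y⌋ + 1) := by
  have e : ∀ n, rnd y n * G n =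
      (if n = ⌊y⌋ then Real.cos (Real.pi / 2 * Int.fract y) * G ⌊y⌋ else 0) +
      (if n = ⌊y⌋ + 1 then Real.sin (Real.pi / 2 * Int.fract y) * G (⌊y⌋ + 1) else 0) := by
    intro n
    unfold rnd
    by_cases h3 : n = ⌊y⌋
    · subst h3; simp
    · by_cases h4 : n = ⌊y⌋ + 1
      · subst h4; simp
      · simp [h3, h4]
  simp only [e, sum_add_distrib, sum_ite_eq', h1, h2, if_true]

theorem rnd_norm (y : ℝ) (s : Finset ℤ) (h1 : ⌊y⌋ ∈ s) (h2 : ⌊y⌋ + 1 ∈ s) :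
    ∑ n ∈ s, rnd y n * rnd y n = 1 := by
  rw [sum_rnd y s h1 h2]
  simp only [rnd, if_true]
  rw [if_neg (by omega)]
  nlinarith [Real.cos_sq_add_sin_sq (Real.pi / 2 * Int.fract y)]

theorem cos_lb (x : ℝ) : 1 - 5 * x ^ 2 ≤ Real.cos (Real.pi / 2 * x) := by
  have h1 := Real.one_sub_sq_div_two_le_cos (x := Real.pi / 2 * x)
  have h2 : Real.pi ^ 2 ≤ 16 := by nlinarith [Real.pi_le_four, Real.pi_pos]
  nlinarith [mul_le_mul_of_nonneg_right h2 (sq_nonneg x)]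

theorem rnd_ip_aux (y y' : ℝ) (h : ⌊y⌋ ≤ ⌊y'⌋) :
    1 - 5 * (y - y') ^ 2 ≤ Real.cos (Real.pi / 2 * Int.fract y) * rnd y' ⌊y⌋ +
      Real.sin (Real.pi / 2 * Int.fract y) * rnd y' (⌊y⌋ + 1) := by
  have e1 := Int.floor_add_fract y
  have e2 := Int.floor_add_fract y'
  by_cases h1 : ⌊y⌋ = ⌊y'⌋
  · simp only [rnd, h1, if_true]
    rw [if_neg (by omega), ← Real.cos_sub, ← mul_sub]
    have : Int.fract y - Int.fract y' = y - y' := by rw [h1] at e1; linarith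
    rw [this]
    exact cos_lb _
  · by_cases h2 : ⌊y⌋ + 1 = ⌊y'⌋
    · simp only [rnd]
      rw [if_neg h1, if_neg (by omega), if_pos h2]
      have h3 := cos_lb (y - y')
      have h4 : (⌊y'⌋ : ℝ) = ⌊y⌋ + 1 := by rw [← h2]; push_cast; ring
      have h5 : Real.pi / 2 * (y - y') =
          (Real.pi / 2 * Int.fract y - Real.pi / 2 * Int.fract y') - Real.pi / 2 := by
        have : y - y' = Int.fract y - Int.fract y' - 1 := by linarith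
        rw [this]; ring
      rw [h5, Real.cos_sub_pi_div_two, Real.sin_sub] at h3
      have := mul_nonneg (cos_ang y) (sin_ang y')
      linarith
    · have h3 : ⌊y⌋ + 2 ≤ ⌊y'⌋ := by omega
      have h4 : (⌊y⌋ : ℝ) + 2 ≤ ⌊y'⌋ := by exact_mod_cast h3
      have h5 := Int.fract_nonneg y'
      have h6 := Int.fract_lt_one y
      have h7 := mul_nonneg (cos_ang y) (rnd_nonneg y' ⌊y⌋)
      have h8 := mul_nonneg (sin_ang y) (rnd_nonneg y' (⌊y⌋ + 1))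
      nlinarith

theorem rnd_ip (y y' : ℝ) (s : Finset ℤ) (h1 : ⌊y⌋ ∈ s) (h2 : ⌊y⌋ + 1 ∈ s) (h1' : ⌊y'⌋ ∈ s)
    (h2' : ⌊y'⌋ + 1 ∈ s) : 1 - 5 * (y - y') ^ 2 ≤ ∑ n ∈ s, rnd y n * rnd y' n := by
  rcases le_total ⌊y⌋ ⌊y'⌋ with h | h
  · rw [sum_rnd y s h1 h2]; exact rnd_ip_aux y y' h
  · simp only [mul_comm (rnd y _)]
    rw [sum_rnd y' s h1' h2', show (y - y') ^ 2 = (y' - y) ^ 2 by ring]
    exact rnd_ip_aux y' y h

theorem prod_ge_one_sub {ι : Type} (s : Finset ι) (F x : ι → ℝ) (hF : ∀ i ∈ s, 0 ≤ F i)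
    (hx : ∀ i ∈ s, 0 ≤ x i) (h : ∀ i ∈ s, 1 - x i ≤ F i) : 1 - ∑ i ∈ s, x i ≤ ∏ i ∈ s, F i := by
  classical
  induction s using Finset.induction_on with
  | empty => simp
  | insert i s hi ih =>
    rw [sum_insert hi, prod_insert hi]
    have h1 := ih (fun j hj => hF j (mem_insert_of_mem hj)) (fun j hj => hx j (mem_insert_of_mem hj))
      (fun j hj => h j (mem_insert_of_mem hj))
    have h2 := hF i (mem_insert_self _ _)
    have h3 := hx i (mem_insert_self _ _)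
    have h4 := h i (mem_insert_self _ _)
    have h5 : 0 ≤ ∏ j ∈ s, F j := prod_nonneg fun j hj => hF j (mem_insert_of_mem hj)
    have h6 : 0 ≤ ∑ j ∈ s, x j := sum_nonneg fun j hj => hx j (mem_insert_of_mem hj)
    rcases le_total (x i) 1 with h7 | h7
    · rcases le_total (∑ j ∈ s, x j) 1 with h8 | h8
      · have := mul_le_mul h4 h1 (by linarith) h2
        nlinarith
      · nlinarith [mul_nonneg h2 h5]
    · nlinarith [mul_nonneg h2 h5]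

end Vale.Agent.P262
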