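import Vale.Agent.P262.Split
import Vale.Agent.P262.Moment

/-!
P262: the lifted local union bound for flat vector tests.
-/

namespace Vale.Agent.P262

open Finset

section pair

variable {𝒯 𝒢 : Type} [Fintype 𝒯] [Fintype 𝒢] [DecidableEq 𝒯] [DecidableEq 𝒢]

/-- amplitude of the lifted state -/
noncomputable def amp (grp : 𝒯 → 𝒢) (c s : 𝒢 → ℝ) (r : 𝒯 → ℤ → ℝ) (b : 𝒢 → Bool) (n : 𝒯 → ℤ) : ℝ :=
  (∏ g, if b g then s g else c g) *
    ∏ x, if b (grp x) then r x (n x) else if n x = 0 then 1 else 0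

theorem pair_sum (grp : 𝒯 → 𝒢) (D : Finset ℤ) (hD : (0 : ℤ) ∈ D) (c s c' s' : 𝒢 → ℝ)
    (r r' : 𝒯 → ℤ → ℝ) :
    ∑ b : 𝒢 → Bool, ∑ n ∈ Fintype.piFinset (fun _ : 𝒯 => D),
      amp grp c s r b n * amp grp c' s' r' b n =
    ∏ g, (s g * s' g * ∏ x with grp x = g, (∑ n ∈ D, r x n * r' x n) + c g * c' g) := by
  have e : ∀ b : 𝒢 → Bool, ∑ n ∈ Fintype.piFinset (fun _ : 𝒯 => D),
      amp grp c s r b n * amp grp c' s' r' b n =
      ∏ g, (if b g then s g * s' g * ∏ x with grp x = g, (∑ n ∈ D, r x n * r' x n)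
        else c g * c' g) := by
    intro b
    have e1 : ∀ n : 𝒯 → ℤ, amp grp c s r b n * amp grp c' s' r' b n =
        (∏ g, if b g then s g * s' g else c g * c' g) *
          ∏ x, (if b (grp x) then r x (n x) * r' x (n x) else if n x = 0 then 1 else 0) := by
      intro n
      unfold amp
      rw [mul_mul_mul_comm, ← prod_mul_distrib, ← prod_mul_distrib]
      congr 1
      · exact prod_congr rfl fun g _ => by split_ifs <;> rfl
      · exact prod_congr rfl fun x _ => by split_ifs <;> simp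
    simp only [e1]
    rw [← mul_sum, ← Finset.prod_univ_sum (fun _ : 𝒯 => D)
      (fun x n => if b (grp x) then r x n * r' x n else if n = 0 then (1 : ℝ) else 0),
      ← Finset.prod_fiberwise univ grp, ← prod_mul_distrib]
    refine prod_congr rfl fun g _ => ?_
    by_cases hb : b g = true
    · rw [if_pos hb, if_pos hb]
      congr 1
      refine prod_congr rfl fun x hx => ?_
      rw [(mem_filter.1 hx).2]
      simp [hb]
    · rw [if_neg hb, if_neg hb, prod_eq_one, mul_one]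
      intro x hx
      rw [(mem_filter.1 hx).2]
      simp [hb, hD]
  simp only [e]
  rw [← Fintype.piFinset_univ, ← Finset.prod_univ_sum (fun _ : 𝒢 => (univ : Finset Bool))
    (fun g (β : Bool) => if β then s g * s' g * ∏ x with grp x = g, (∑ n ∈ D, r x n * r' x n)
        else c g * c' g)]
  refine prod_congr rfl fun g _ => ?_
  simp

end pair

/-- the angle -/
noncomputable def ang (τ y : ℝ) : ℝ := Real.pi / 2 * max 0 (min 1 (2 * y / √τ - 1))

theorem ang_bd (τ y : ℝ) : 0 ≤ ang τ y ∧ ang τ y ≤ Real.pi / 2 := by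
  have h1 : 0 ≤ max 0 (min 1 (2 * y / √τ - 1)) := le_max_left _ _
  have h2 : max 0 (min 1 (2 * y / √τ - 1)) ≤ 1 := max_le zero_le_one (min_le_left _ _)
  have := Real.pi_pos
  unfold ang
  constructor
  · positivity
  · nlinarith

theorem cos_ang' (τ y : ℝ) : 0 ≤ Real.cos (ang τ y) :=
  Real.cos_nonneg_of_neg_pi_div_two_le_of_le (by linarith [(ang_bd τ y).1, Real.pi_pos])
    (ang_bd τ y).2

theorem sin_ang' (τ y : ℝ) : 0 ≤ Real.sin (ang τ y) :=
  Real.sin_nonneg_of_nonneg_of_le_pi (ang_bd τ y).1 (by linarith [(ang_bd τ y).2, Real.pi_pos])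

theorem ang_good {τ y : ℝ} (hτ : 0 < τ) (h : y ^ 2 ≤ τ / 4) : ang τ y = 0 := by
  have hs : 0 < √τ := Real.sqrt_pos.2 hτ
  have h1 : 2 * y ≤ √τ := Real.le_sqrt_of_sq_le (by nlinarith)
  have h2 : 2 * y / √τ ≤ 1 := (div_le_one hs).2 h1
  unfold ang
  rw [max_eq_left ((min_le_right _ _).trans (by linarith)), mul_zero]

theorem ang_cos_ne {τ y : ℝ} (hτ : 0 < τ) (hy : 0 ≤ y) (h : Real.cos (ang τ y) ≠ 0) :
    y ^ 2 ≤ τ := by
  by_contra hc
  push Not at hc
  have hs : 0 < √τ := Real.sqrt_pos.2 hτ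
  have h1 : √τ ≤ y := Real.sqrt_le_iff.2 ⟨hy, hc.le⟩
  have h2 : 2 ≤ 2 * y / √τ := (le_div_iff₀ hs).2 (by linarith)
  apply h
  unfold ang
  rw [min_eq_left (by linarith), max_eq_right zero_le_one, mul_one, Real.cos_pi_div_two]

theorem ang_lip {τ : ℝ} (hτ : 0 < τ) (y y' : ℝ) :
    1 - 20 * (y - y') ^ 2 / τ ≤ Real.cos (ang τ y - ang τ y') := by
  have hs : 0 < √τ := Real.sqrt_pos.2 hτ
  unfold ang
  rw [← mul_sub]
  refine le_trans ?_ (cos_lb _)
  have h1 : |max 0 (min 1 (2 * y / √τ - 1)) - max 0 (min 1 (2 * y' / √τ - 1))| ≤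
      |(2 * y / √τ - 1) - (2 * y' / √τ - 1)| := by
    refine (abs_max_sub_max_le_max _ _ _ _).trans (max_le (by simp) ?_)
    refine (abs_min_sub_min_le_max _ _ _ _).trans (max_le (by simp) le_rfl)
  have h2 := sq_le_sq.2 h1
  have h3 : ((2 * y / √τ - 1) - (2 * y' / √τ - 1)) ^ 2 = 4 * (y - y') ^ 2 / τ := by
    rw [show (2 * y / √τ - 1) - (2 * y' / √τ - 1) = 2 * (y - y') / √τ by ring, div_pow,
      Real.sq_sqrt hτ.le]
    ring
  rw [h3] at h2
  have : 20 * (y - y') ^ 2 / τ = 5 * (4 * (y - y') ^ 2 / τ) := by ring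
  linarith

theorem factor_lb {τ y y' P X : ℝ} (hτ : 0 < τ) (hX : 0 ≤ X) (hP : 1 - X ≤ P) :
    1 - (20 * (y - y') ^ 2 / τ + X) ≤
      Real.sin (ang τ y) * Real.sin (ang τ y') * P + Real.cos (ang τ y) * Real.cos (ang τ y') := by
  have h1 := ang_lip hτ y y'
  rw [Real.cos_sub] at h1
  have h2 := mul_nonneg (sin_ang' τ y) (sin_ang' τ y')
  have h3 : Real.sin (ang τ y) * Real.sin (ang τ y') ≤ 1 :=
    mul_le_one₀ (Real.sin_le_one _) (sin_ang' τ y') (Real.sin_le_one _)
  nlinarith [mul_le_mul_of_nonneg_left hP h2, mul_le_mul_of_nonneg_right h3 hX]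

theorem sum_inj_le {α : Type} [DecidableEq α] (W B : Finset α) (e : α → α)
    (he : Function.Injective e) (h : ∀ x ∈ W, e x ∈ B) (G : α → ℝ) (hG : ∀ x, 0 ≤ G x) :
    ∑ x ∈ W, G (e x) ≤ ∑ x ∈ B, G x := by
  rw [← sum_image (fun x _ y _ hxy => he hxy)]
  exact sum_le_sum_of_subset_of_nonneg (image_subset_iff.2 h) fun _ _ _ => hG _

theorem inner_card {N : ℕ} (i : Fin N) : ∃ W : Finset (Fin N → ℤ),
    (∀ ξ, ξ ∈ W ↔ ξ - Pi.single i 3 ∈ box N 300 ∧ ξ + Pi.single i 3 ∈ box N 300) ∧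
    (W.card : ℝ) * 601 = 595 * (box N 300).card := by
  refine ⟨Fintype.piFinset fun j => if j = i then Icc (-297) 297 else Icc (-300) 300, ?_, ?_⟩
  · intro ξ
    simp only [Fintype.mem_piFinset, mem_box, ← forall_and]
    refine forall_congr' fun j => ?_
    by_cases h : j = i
    · subst h
      simp only [if_true, mem_Icc, Pi.sub_apply, Pi.add_apply, Pi.single_eq_same]
      omega
    · simp only [if_neg h, mem_Icc, Pi.sub_apply, Pi.add_apply, Pi.single_eq_of_ne h]
      omega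
  · unfold box
    rw [Fintype.card_piFinset, Fintype.card_piFinset, ← mul_prod_erase univ _ (mem_univ i),
      ← mul_prod_erase univ _ (mem_univ i)]
    rw [prod_congr rfl (g := fun _ => (Icc (-300 : ℤ) 300).card)
      fun j hj => by rw [if_neg (mem_erase.1 hj).1]]
    simp
    ring

set_option maxHeartbeats 1600000 in
theorem flat {N : ℕ} {𝒯 𝒢 : Type} [Fintype 𝒯] [Fintype 𝒢] [DecidableEq 𝒯] [DecidableEq 𝒢]
    (grp : 𝒯 → 𝒢) (a : 𝒯 → Fin N → ℝ) (op μ t : 𝒢 → ℝ) (o : Fin N → 𝒯)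
    (hop0 : ∀ g, 0 ≤ op g) (ht : ∀ g, 0 < t g)
    (hop : ∀ g (x : 𝒯 → ℝ), ∑ i, (∑ s with grp s = g, x s * a s i) ^ 2 ≤
      op g * ∑ s with grp s = g, x s ^ 2)
    (hμ : ∀ g, ∑ i, ∑ s with grp s = g, a s i ^ 2 ≤ μ g)
    (hcost : ∀ i, ∑ g, (∑ s with grp s = g, a s i ^ 2) *
      ((univ.filter fun s => grp s = g).card * (op g * μ g) ^ 2 / t g ^ 5) ≤ 1 / 10 ^ 28)
    (ho : ∀ k i, k ≤ i → a (o k) i = 0)
    (hτ : ∀ k, 4 * (300 ^ 2 * μ (grp (o k)) + t (grp (o k))) ≤ 1 / 25) :
    ∃ η : Fin N → ℝ,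
      (∀ g, ∑ s with grp s = g, (∑ i, η i * a s i) ^ 2 ≤ 4 * (300 ^ 2 * μ g + t g)) ∧
      ∀ k, η k - ∑ i, η i * a (o k) i = 1 ∨ η k - ∑ i, η i * a (o k) i = -1 := by
  classical
  let A : 𝒢 → Fin N → EuclideanSpace ℝ 𝒯 := fun g i =>
    WithLp.toLp 2 fun s => if grp s = g then a s i else 0
  let y : (Fin N → ℤ) → 𝒯 → ℝ := fun ξ s => ∑ i, (ξ i : ℝ) * a s i
  let Y : 𝒢 → (Fin N → ℤ) → ℝ := fun g ξ => ‖∑ i, (ξ i : ℝ) • A g i‖
  let τ : 𝒢 → ℝ := fun g => 4 * (300 ^ 2 * μ g + t g)
  let m : 𝒢 → ℝ := fun g => (univ.filter fun s => grp s = g).card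
  let h : 𝒢 → ℝ := fun g => √(τ g / m g)
  have hμ0 : ∀ g, 0 ≤ μ g := fun g => le_trans (by positivity) (hμ g)
  have hτ0 : ∀ g, 0 < τ g := fun g => by have := hμ0 g; have := ht g; positivity
  have hm1 : ∀ s, 1 ≤ m (grp s) := fun s => by
    have : 0 < (univ.filter fun s' => grp s' = grp s).card := card_pos.2 ⟨s, by simp⟩
    simp only [m]
    exact_mod_cast this
  have hh0 : ∀ s, 0 < h (grp s) := fun s =>
    Real.sqrt_pos.2 (div_pos (hτ0 _) (by linarith [hm1 s]))
  have hh2 : ∀ g, h g ^ 2 = τ g / m g := fun g =>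
    Real.sq_sqrt (div_nonneg (hτ0 g).le (by positivity))
  have hA : ∀ g i, ‖A g i‖ ^ 2 = ∑ s with grp s = g, a s i ^ 2 := by
    intro g i
    rw [EuclideanSpace.real_norm_sq_eq, sum_filter]
    exact sum_congr rfl fun s _ => by simp only [A]; split_ifs <;> simp
  have hY : ∀ g ξ, Y g ξ ^ 2 = ∑ s with grp s = g, y ξ s ^ 2 := by
    intro g ξ
    simp only [Y]
    rw [EuclideanSpace.real_norm_sq_eq, sum_filter]
    refine sum_congr rfl fun s _ => ?_
    simp only [WithLp.ofLp_sum, Finset.sum_apply, WithLp.ofLp_smul, Pi.smul_apply, smul_eq_mul, A,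
      y]
    split_ifs <;> simp
  have hAip : ∀ g i j, inner ℝ (A g i) (A g j) = ∑ s with grp s = g, a s i * a s j := by
    intro g i j
    rw [PiLp.inner_apply, sum_filter]
    refine sum_congr rfl fun s _ => ?_
    simp only [A]
    split_ifs <;> simp [mul_comm]
  let D : Finset ℤ := insert 0
    (((box N 300) ×ˢ (univ : Finset 𝒯)).image (fun p => ⌊y p.1 p.2 / h (grp p.2)⌋) ∪
      ((box N 300) ×ˢ (univ : Finset 𝒯)).image (fun p => ⌊y p.1 p.2 / h (grp p.2)⌋ + 1))
  have hD0 : (0 : ℤ) ∈ D := mem_insert_self _ _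
  have hD1 : ∀ ξ ∈ box N 300, ∀ s, ⌊y ξ s / h (grp s)⌋ ∈ D := fun ξ hξ s =>
    mem_insert_of_mem (mem_union_left _ (mem_image.2 ⟨(ξ, s), by simp [hξ], rfl⟩))
  have hD2 : ∀ ξ ∈ box N 300, ∀ s, ⌊y ξ s / h (grp s)⌋ + 1 ∈ D := fun ξ hξ s =>
    mem_insert_of_mem (mem_union_right _ (mem_image.2 ⟨(ξ, s), by simp [hξ], rfl⟩))
  let am : (Fin N → ℤ) → (𝒢 → Bool) → (𝒯 → ℤ) → ℝ := fun ξ =>
    amp grp (fun g => Real.cos (ang (τ g) (Y g ξ))) (fun g => Real.sin (ang (τ g) (Y g ξ)))
      (fun s => rnd (y ξ s / h (grp s)))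
  let f : (Fin N → ℤ) × (𝒢 → Bool) × (𝒯 → ℤ) → ℝ := fun ω =>
    if ω.1 ∈ box N 300 then am ω.1 ω.2.1 ω.2.2 else 0
  let FF : (Fin N → ℤ) → (Fin N → ℤ) → 𝒢 → ℝ := fun ξ ξ' g =>
    Real.sin (ang (τ g) (Y g ξ)) * Real.sin (ang (τ g) (Y g ξ')) *
      ∏ s with grp s = g, (∑ n ∈ D, rnd (y ξ s / h (grp s)) n * rnd (y ξ' s / h (grp s)) n) +
      Real.cos (ang (τ g) (Y g ξ)) * Real.cos (ang (τ g) (Y g ξ'))
  have hsupp : ∀ ω, f ω ≠ 0 → ω.1 ∈ box N 300 ∧
      (∀ g, ω.2.1 g = false → Real.cos (ang (τ g) (Y g ω.1)) ≠ 0) ∧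
      (∀ s, ω.2.1 (grp s) = true → rnd (y ω.1 s / h (grp s)) (ω.2.2 s) ≠ 0) ∧
      (∀ s, ω.2.1 (grp s) = false → ω.2.2 s = 0) := by
    rintro ⟨ξ, b, n⟩ hω
    have h1 : ξ ∈ box N 300 := by
      by_contra hc
      exact hω (if_neg hc)
    simp only [f, if_pos h1, am, amp] at hω
    have h2 := prod_ne_zero_iff.1 (left_ne_zero_of_mul hω)
    have h3 := prod_ne_zero_iff.1 (right_ne_zero_of_mul hω)
    refine ⟨h1, fun g hg => ?_, fun s hs => ?_, fun s hs => ?_⟩
    · simpa [show b g = false from hg] using h2 g (mem_univ _)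
    · simpa [show b (grp s) = true from hs] using h3 s (mem_univ _)
    · simpa [show b (grp s) = false from hs] using h3 s (mem_univ _)
  have hsuppD : ∀ ω, f ω ≠ 0 → ω.2.2 ∈ Fintype.piFinset fun _ : 𝒯 => D := by
    intro ω hω
    obtain ⟨h1, _, h3, h4⟩ := hsupp ω hω
    rw [Fintype.mem_piFinset]
    intro s
    cases hb : ω.2.1 (grp s)
    · rw [h4 s hb]; exact hD0
    · have := h3 s hb
      unfold rnd at this
      split_ifs at this with h5 h6
      · rw [h5]; exact hD1 _ h1 s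
      · rw [h6]; exact hD2 _ h1 s
      · exact absurd rfl this
  have hsum : ∀ (e1 e2 : (Fin N → ℤ) → (Fin N → ℤ)) (W : Finset (Fin N → ℤ)),
      (∀ ξ, ξ ∈ W ↔ e1 ξ ∈ box N 300 ∧ e2 ξ ∈ box N 300) →
      ∑ᶠ ω : (Fin N → ℤ) × (𝒢 → Bool) × (𝒯 → ℤ), f (e1 ω.1, ω.2) * f (e2 ω.1, ω.2)
        = ∑ ξ ∈ W, ∏ g, FF (e1 ξ) (e2 ξ) g := by
    intro e1 e2 W hW
    rw [finsum_eq_sum_of_support_subset _
      (s := W ×ˢ ((univ : Finset (𝒢 → Bool)) ×ˢ Fintype.piFinset fun _ : 𝒯 => D))]
    · rw [sum_product]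
      refine sum_congr rfl fun ξ hξ => ?_
      obtain ⟨h1, h2⟩ := (hW ξ).1 hξ
      rw [sum_product]
      simp only [f, if_pos h1, if_pos h2, am]
      exact pair_sum grp D hD0 _ _ _ _ _ _
    · intro ω hω
      have h1 : f (e1 ω.1, ω.2) ≠ 0 := left_ne_zero_of_mul hω
      have h2 : f (e2 ω.1, ω.2) ≠ 0 := right_ne_zero_of_mul hω
      simp only [coe_product, Set.mem_prod, mem_coe, mem_univ, true_and]
      exact ⟨(hW _).2 ⟨(hsupp _ h1).1, (hsupp _ h2).1⟩, hsuppD (e1 ω.1, ω.2) h1⟩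
  have hB0 : (0 : ℝ) < (box N 300).card := by
    have : 0 < (box N 300).card := card_pos.2 ⟨0, by simp [mem_box]⟩
    exact_mod_cast this
  let K : Set (𝒯 → ℝ) := {z | ∀ g, ∑ s with grp s = g, z s ^ 2 ≤ τ g}
  obtain ⟨η, hη1, hη2⟩ := split_symm N ((Fin N → ℤ) × (𝒢 → Bool) × (𝒯 → ℤ)) (𝒯 → ℝ) f
    (fun ω s => y ω.1 s - h (grp s) * ω.2.2 s) K
    (fun i => Equiv.prodCongr (Equiv.addRight (Pi.single i 3)) (Equiv.refl _))
    (fun i s => a s i) (fun k => LinearMap.proj (o k)) (box N 300).card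
    (by
      refine (finite_toSet ((box N 300) ×ˢ ((univ : Finset (𝒢 → Bool)) ×ˢ
        Fintype.piFinset fun _ : 𝒯 => D))).subset fun ω hω => ?_
      simp only [coe_product, Set.mem_prod, mem_coe, mem_univ, true_and]
      exact ⟨(hsupp _ hω).1, hsuppD _ hω⟩)
    (by
      intro ω
      simp only [f, am, amp]
      split_ifs
      · refine mul_nonneg (prod_nonneg fun g _ => ?_) (prod_nonneg fun s _ => ?_)
        · split_ifs
          · exact sin_ang' _ _
          · exact cos_ang' _ _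
        · split_ifs
          · exact rnd_nonneg _ _
          · exact zero_le_one
          · exact le_rfl
      · exact le_rfl)
    hB0
    (by
      have := hsum id id (box N 300) (by simp)
      simp only [id, ← sq] at this
      rw [this, card_eq_sum_ones, Nat.cast_sum]
      refine sum_congr rfl fun ξ hξ => ?_
      rw [Nat.cast_one]
      refine prod_eq_one fun g _ => ?_
      simp only [FF]
      rw [prod_eq_one fun s _ => rnd_norm _ _ (hD1 ξ hξ s) (hD2 ξ hξ s)]
      nlinarith [Real.sin_sq_add_cos_sq (ang (τ g) (Y g ξ))])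
    (by
      intro z hz z' hz' c d hc hd hcd g
      have h1 := mul_le_mul_of_nonneg_left (hz g) hc
      have h2 := mul_le_mul_of_nonneg_left (hz' g) hd
      calc ∑ s with grp s = g, (c • z + d • z') s ^ 2
          ≤ ∑ s with grp s = g, (c * z s ^ 2 + d * z' s ^ 2) := by
            refine sum_le_sum fun s _ => ?_
            simp only [Pi.add_apply, Pi.smul_apply, smul_eq_mul]
            have e : d = 1 - c := by linarith
            subst e
            nlinarith [mul_nonneg (mul_nonneg hc hd) (sq_nonneg (z s - z' s))]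
        _ ≤ c * τ g + d * τ g := by
            rw [sum_add_distrib, ← mul_sum, ← mul_sum]; linarith
        _ = τ g := by rw [← add_mul, hcd, one_mul])
    (by
      intro z hz g
      simpa using hz g)
    (by
      intro ω hω g
      obtain ⟨_, h2, h3, h4⟩ := hsupp ω hω
      cases hb : ω.2.1 g
      · have h5 := ang_cos_ne (hτ0 g) (norm_nonneg _) (h2 g hb)
        refine le_trans (le_of_eq ?_) ((hY g ω.1).symm.le.trans h5)
        refine sum_congr rfl fun s hs => ?_
        have hs' := (mem_filter.1 hs).2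
        simp only []
        rw [h4 s (by rw [hs', hb])]
        simp
      · calc ∑ s with grp s = g, (y ω.1 s - h (grp s) * ω.2.2 s) ^ 2
            ≤ ∑ s with grp s = g, τ g / m g := by
              refine sum_le_sum fun s hs => ?_
              have hs' := (mem_filter.1 hs).2
              have h5 := rnd_ne (h3 s (by rw [hs', hb]))
              have h6 := hh0 s
              have e : y ω.1 s - h (grp s) * ω.2.2 s
                  = h (grp s) * (y ω.1 s / h (grp s) - ω.2.2 s) := by field_simp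
              rw [e, mul_pow, ← hh2, ← hs']
              nlinarith [sq_nonneg (h (grp s))]
          _ ≤ τ g := by
              rw [sum_const, nsmul_eq_mul]
              change m g * (τ g / m g) ≤ τ g
              rcases eq_or_ne (m g) 0 with h0 | h0
              · rw [h0, zero_mul]; exact (hτ0 g).le
              · rw [mul_div_cancel₀ _ h0])
    (by
      rintro i j ⟨ξ, ω⟩
      simp [add_right_comm])
    (by
      rintro i ⟨ξ, ω⟩
      ext s
      simp only [y, Equiv.prodCongr_apply, Equiv.coe_addRight, Equiv.coe_refl, Prod.map_apply,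
        id, Pi.add_apply, Pi.smul_apply, smul_eq_mul]
      push_cast
      simp only [add_mul, sum_add_distrib]
      rw [sum_eq_single i (f := fun j => ((Pi.single i 3 : Fin N → ℤ) j : ℝ) * a s j)
        (fun j _ hj => by simp [hj]) (by simp)]
      simp
      ring)
    (by
      intro i
      obtain ⟨W, hW, hWc⟩ := inner_card i
      have e := hsum (fun ξ => ξ - Pi.single i 3) (fun ξ => ξ + Pi.single i 3) W hW
      have e' : ∑ᶠ ω : (Fin N → ℤ) × (𝒢 → Bool) × (𝒯 → ℤ),
          f ((Equiv.prodCongr (Equiv.addRight (Pi.single i 3)) (Equiv.refl _)).symm ω) *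
            f ((Equiv.prodCongr (Equiv.addRight (Pi.single i 3)) (Equiv.refl _)) ω)
          = ∑ ξ ∈ W, ∏ g, FF (ξ - Pi.single i 3) (ξ + Pi.single i 3) g := by
        rw [← e]
        refine finsum_congr fun ω => ?_
        simp [Prod.map, sub_eq_add_neg]
      rw [e']
      let bad : 𝒢 → (Fin N → ℤ) → ℝ := fun g ξ =>
        if ((300 : ℕ) : ℝ) ^ 2 * μ g + t g < Y g ξ ^ 2 then 1 else 0
      have hbad0 : ∀ g ξ, 0 ≤ bad g ξ := fun g ξ => by
        simp only [bad]; split_ifs <;> norm_num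
      let co : 𝒢 → ℝ := fun g => 900 * ‖A g i‖ ^ 2 * m g / τ g
      have hco0 : ∀ g, 0 ≤ co g := fun g => by have := hτ0 g; positivity
      have hfac : ∀ ξ ∈ W, 1 - ∑ g, co g * (bad g (ξ - Pi.single i 3) + bad g (ξ + Pi.single i 3))
          ≤ ∏ g, FF (ξ - Pi.single i 3) (ξ + Pi.single i 3) g := by
        intro ξ hξ
        obtain ⟨h1, h2⟩ := (hW ξ).1 hξ
        set ξ1 := ξ - Pi.single i 3 with hξ1
        set ξ2 := ξ + Pi.single i 3 with hξ2
        have hd : ∀ j, (ξ2 j : ℝ) = ξ1 j + if j = i then 6 else 0 := by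
          intro j
          by_cases hj : j = i
          · subst hj; simp [hξ1, hξ2]; ring
          · simp [hξ1, hξ2, hj]
        have hP0 : ∀ s, 0 ≤ ∑ n ∈ D, rnd (y ξ1 s / h (grp s)) n * rnd (y ξ2 s / h (grp s)) n :=
          fun s => sum_nonneg fun n _ => mul_nonneg (rnd_nonneg _ _) (rnd_nonneg _ _)
        refine prod_ge_one_sub _ _ _ (fun g _ => ?_)
          (fun g _ => mul_nonneg (hco0 g) (add_nonneg (hbad0 _ _) (hbad0 _ _))) (fun g _ => ?_)
        · exact add_nonneg (mul_nonneg (mul_nonneg (sin_ang' _ _) (sin_ang' _ _))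
            (prod_nonneg fun s _ => hP0 s)) (mul_nonneg (cos_ang' _ _) (cos_ang' _ _))
        by_cases hg : bad g ξ1 + bad g ξ2 < 1
        · have g1 : Y g ξ1 ^ 2 ≤ τ g / 4 := by
            by_contra hc
            have : bad g ξ1 = 1 := if_pos (by simp only [τ] at hc; push_cast; linarith)
            linarith [hbad0 g ξ2]
          have g2 : Y g ξ2 ^ 2 ≤ τ g / 4 := by
            by_contra hc
            have : bad g ξ2 = 1 := if_pos (by simp only [τ] at hc; push_cast; linarith)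
            linarith [hbad0 g ξ1]
          simp only [FF, ang_good (hτ0 g) g1, ang_good (hτ0 g) g2]
          have := mul_nonneg (hco0 g) (add_nonneg (hbad0 g ξ1) (hbad0 g ξ2))
          simpa using this
        · push Not at hg
          have hX : 0 ≤ 180 * ‖A g i‖ ^ 2 * m g / τ g := by have := hτ0 g; positivity
          have hP : 1 - 180 * ‖A g i‖ ^ 2 * m g / τ g ≤ ∏ s with grp s = g,
              (∑ n ∈ D, rnd (y ξ1 s / h (grp s)) n * rnd (y ξ2 s / h (grp s)) n) := by
            refine le_trans (le_of_eq ?_) (prod_ge_one_sub _ _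
              (fun s => 180 * a s i ^ 2 * m g / τ g) (fun s _ => hP0 s)
              (fun s _ => by have := hτ0 g; positivity) (fun s hs => ?_))
            · rw [hA, mul_sum, sum_mul, sum_div]
            · have hs' := (mem_filter.1 hs).2
              refine le_trans (le_of_eq ?_) (rnd_ip _ _ D (hD1 _ h1 s) (hD2 _ h1 s) (hD1 _ h2 s)
                (hD2 _ h2 s))
              have e3 : y ξ2 s = y ξ1 s + 6 * a s i := by
                simp only [y, hd, add_mul, sum_add_distrib, ite_mul, zero_mul, sum_ite_eq',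
                  mem_univ, if_true]
              have h6 := hm1 s
              have h7 := hτ0 g
              rw [e3, ← sub_div, div_pow, hh2, hs']
              rw [hs'] at h6
              field_simp
              ring
          have hYd : (Y g ξ1 - Y g ξ2) ^ 2 ≤ 36 * ‖A g i‖ ^ 2 * m g := by
            have e4 : ∑ j, (ξ2 j : ℝ) • A g j = ∑ j, (ξ1 j : ℝ) • A g j + (6 : ℝ) • A g i := by
              simp only [hd, add_smul, sum_add_distrib, ite_smul, zero_smul, sum_ite_eq',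
                mem_univ, if_true]
            have h8 := abs_norm_sub_norm_le (∑ j, (ξ1 j : ℝ) • A g j) (∑ j, (ξ2 j : ℝ) • A g j)
            rw [e4, sub_add_cancel_left, norm_neg, norm_smul, ← e4] at h8
            have h9 : (Y g ξ1 - Y g ξ2) ^ 2 ≤ (‖(6 : ℝ)‖ * ‖A g i‖) ^ 2 :=
              sq_le_sq.2 (h8.trans (le_abs_self _))
            have h10 : ‖A g i‖ ^ 2 ≤ ‖A g i‖ ^ 2 * m g := by
              rcases (univ.filter fun s => grp s = g).eq_empty_or_nonempty with h0 | ⟨s, hs⟩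
              · rw [hA, h0]; simp
              · have := hm1 s
                rw [(mem_filter.1 hs).2] at this
                nlinarith [sq_nonneg ‖A g i‖]
            norm_num at h9
            nlinarith
          refine le_trans ?_ (factor_lb (hτ0 g) hX hP)
          have h11 : 20 * (Y g ξ1 - Y g ξ2) ^ 2 / τ g ≤ 720 * ‖A g i‖ ^ 2 * m g / τ g :=
            div_le_div_of_nonneg_right (by linarith) (hτ0 g).le
          have h12 : co g = 720 * ‖A g i‖ ^ 2 * m g / τ g + 180 * ‖A g i‖ ^ 2 * m g / τ g := by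
            simp only [co]; ring
          nlinarith [hco0 g]
      refine le_trans ?_ (sum_le_sum hfac)
      rw [sum_sub_distrib, sum_comm, sum_const, nsmul_eq_mul, mul_one]
      have hb : ∀ g, ∑ ξ ∈ W, co g * (bad g (ξ - Pi.single i 3) + bad g (ξ + Pi.single i 3))
          ≤ (box N 300).card * (450 * (24 * 300 ^ 4) ^ 2 *
            (‖A g i‖ ^ 2 * (m g * (op g * μ g) ^ 2 / t g ^ 5))) := by
        intro g
        have t1 := sum_inj_le W (box N 300) (fun ξ => ξ - Pi.single i 3) sub_left_injective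
          (fun ξ hξ => ((hW ξ).1 hξ).1) (bad g) (hbad0 g)
        have t2 := sum_inj_le W (box N 300) (fun ξ => ξ + Pi.single i 3) (add_left_injective _)
          (fun ξ hξ => ((hW ξ).1 hξ).2) (bad g) (hbad0 g)
        have t3 := tail (H := 300) (A g) (op g) (μ g) (t g) (hop0 g) (ht g)
          (fun j => by simp only [hAip, hA]; exact hop g fun s => a s j)
          (by simp only [hA]; exact hμ g)
        change ∑ ξ ∈ box N 300, bad g ξ ≤ _ at t3
        rw [← mul_sum, sum_add_distrib]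
        have t4 : co g ≤ 225 * ‖A g i‖ ^ 2 * m g / t g := by
          simp only [co]
          rw [div_le_div_iff₀ (hτ0 g) (ht g)]
          have : 0 ≤ ‖A g i‖ ^ 2 * m g * μ g := by have := hμ0 g; positivity
          simp only [τ]
          nlinarith
        have := ht g
        calc _ ≤ (225 * ‖A g i‖ ^ 2 * m g / t g) * (2 * ((box N 300).card *
              (24 * ((300 : ℕ) : ℝ) ^ 4 * op g * μ g) ^ 2 / t g ^ 4)) :=
            mul_le_mul t4 (by linarith)
              (add_nonneg (sum_nonneg fun _ _ => hbad0 _ _) (sum_nonneg fun _ _ => hbad0 _ _))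
              (by positivity)
          _ = _ := by push_cast; field_simp; ring
      have hb2 := sum_le_sum fun g (_ : g ∈ univ) => hb g
      rw [← mul_sum, ← mul_sum] at hb2
      have hc := hcost i
      simp only [← hA] at hc
      have hb3 := mul_le_mul_of_nonneg_left
        (mul_le_mul_of_nonneg_left hc (by positivity : (0 : ℝ) ≤ 450 * (24 * 300 ^ 4) ^ 2)) hB0.le
      have hb4 := hb2.trans hb3
      norm_num at hb4
      linarith)
    (by
      intro k z hz
      have h1 : z (o k) ^ 2 ≤ τ (grp (o k)) :=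
        le_trans (single_le_sum (f := fun s => z s ^ 2) (fun _ _ => sq_nonneg _) (by simp))
          (hz (grp (o k)))
      have h2 := hτ k
      simp only [LinearMap.proj_apply]
      exact abs_le_of_sq_le_sq (by simp only [τ] at h1; linarith) (by norm_num))
    (by
      intro k j hkj
      exact ho k j hkj)
  refine ⟨η, fun g => ?_, fun k => ?_⟩
  · simpa [Finset.sum_apply] using hη1 g
  · simpa [Finset.sum_apply] using hη2 k

end Vale.Agent.P262
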