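import Mathlib

/-!
P262: the causal splitting theorem.
-/

namespace Vale.Agent.P262

open Function

theorem fin_of {Ω M : Type} [Zero M] {f : Ω → ℝ} (hf : HasFiniteSupport f) (e : Ω ≃ Ω)
    {G : Ω → M} (h : ∀ ω, f (e ω) = 0 → G ω = 0) : HasFiniteSupport G := by
  have h1 : (e ⁻¹' support f).Finite := Set.Finite.preimage e.injective.injOn hf
  exact h1.subset fun ω hω => fun h0 => hω (h ω h0)

theorem fin_of2 {Ω M : Type} [Zero M] {f : Ω → ℝ} (hf : HasFiniteSupport f) (e e' : Ω ≃ Ω)
    {G : Ω → M} (h : ∀ ω, f (e ω) = 0 → f (e' ω) = 0 → G ω = 0) : HasFiniteSupport G := by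
  have h1 : (e ⁻¹' support f).Finite := Set.Finite.preimage e.injective.injOn hf
  have h2 : (e' ⁻¹' support f).Finite := Set.Finite.preimage e'.injective.injOn hf
  refine (h1.union h2).subset fun ω hω => ?_
  by_contra hc
  simp only [Set.mem_union, Set.mem_preimage, mem_support, not_or, not_not] at hc
  exact hω (h ω hc.1 hc.2)

theorem fin_bool {Ω M : Type} [Zero M] {F : Ω × Bool → M}
    (h0 : HasFiniteSupport fun ω => F (ω, false)) (h1 : HasFiniteSupport fun ω => F (ω, true)) :
    HasFiniteSupport F := by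
  refine ((Set.Finite.union h0 h1).prod (Set.finite_univ (α := Bool))).subset ?_
  rintro ⟨ω, b⟩ hx
  refine ⟨?_, Set.mem_univ _⟩
  cases b
  · exact Or.inl hx
  · exact Or.inr hx

theorem finsum_bool {Ω M : Type} [AddCommMonoid M] {F : Ω × Bool → M}
    (h0 : HasFiniteSupport fun ω => F (ω, false)) (h1 : HasFiniteSupport fun ω => F (ω, true)) :
    ∑ᶠ x, F x = ∑ᶠ ω, (F (ω, true) + F (ω, false)) := by
  rw [finsum_curry F (fin_bool h0 h1)]
  refine finsum_congr fun ω => ?_
  rw [finsum_eq_sum_of_fintype, Fintype.sum_bool]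

theorem rearr (a b a' b' : ℝ) : a * a' + b * b' ≤ min a b * min a' b' + max a b * max a' b' := by
  rcases le_total a b with h | h <;> rcases le_total a' b' with h' | h' <;>
    simp only [min_eq_left, max_eq_right, min_eq_right, max_eq_left, h, h'] <;> nlinarith

theorem minmax_sq (a b : ℝ) : min a b ^ 2 + max a b ^ 2 = a ^ 2 + b ^ 2 := by
  rcases le_total a b with h | h
  · simp only [min_eq_left, max_eq_right, h]
  · simp only [min_eq_right, max_eq_left, h]
    ring

theorem amgm (a b : ℝ) : a * b ≤ 9 / 40 * min a b ^ 2 + 2 / 5 * (a ^ 2 + b ^ 2) := by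
  rcases le_total a b with h | h <;>
    simp only [min_eq_left, min_eq_right, h] <;> nlinarith [sq_nonneg (5 * a - 4 * b), sq_nonneg (5 * b - 4 * a)]

theorem split (n : ℕ) : ∀ (Ω E : Type) [AddCommGroup E] [Module ℝ E] (f : Ω → ℝ) (pos : Ω → E)
    (K : Set E) (T : Fin n → Equiv.Perm Ω) (u : Fin n → E) (ℓ : Fin n → E →ₗ[ℝ] ℝ) (Z : ℝ) (m : E),
    HasFiniteSupport f → (∀ ω, 0 ≤ f ω) → 0 < Z → ∑ᶠ ω, f ω ^ 2 = Z →
    ∑ᶠ ω, f ω ^ 2 • pos ω = Z • m → Convex ℝ K → (∀ ω, f ω ≠ 0 → pos ω ∈ K) →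
    (∀ i j ω, T i (T j ω) = T j (T i ω)) → (∀ i ω, pos (T i ω) = pos ω + (3 : ℝ) • u i) →
    (∀ i, 49 / 50 * Z ≤ ∑ᶠ ω, f ((T i).symm ω) * f (T i ω)) →
    (∀ k, ∀ x ∈ K, |ℓ k x| ≤ 1 / 5) → (∀ k j, k ≤ j → ℓ k (u j) = 0) →
    ∃ η : Fin n → ℝ, m + ∑ i, η i • u i ∈ K ∧
      ∀ k, η k - ℓ k (m + ∑ i, η i • u i) = 1 ∨ η k - ℓ k (m + ∑ i, η i • u i) = -1 := by
  induction n with
  | zero =>
    intro Ω E _ _ f pos K T u ℓ Z m hf h0 hZ hZ1 hm hK hs _ _ _ _ _
    refine ⟨fun i => i.elim0, ?_, fun k => k.elim0⟩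
    have h1 := hK.finsum_mem (w := fun ω => Z⁻¹ * f ω ^ 2) (z := pos)
      (fun ω => by positivity) (by rw [← mul_finsum, hZ1]; field_simp)
      (fun ω hω => hs ω fun h => hω (by simp [h]))
    have h2 : ∑ᶠ ω, (Z⁻¹ * f ω ^ 2) • pos ω = m := by
      simp only [mul_smul]
      rw [← smul_finsum' _ (fin_of hf (Equiv.refl _) fun ω h => by simp at h; simp [h]), hm,
        smul_smul, inv_mul_cancel₀ hZ.ne', one_smul]
    simpa [h2] using h1
  | succ n ih =>
    intro Ω E _ _ f pos K T u ℓ Z m hf h0 hZ hZ1 hm hK hs hT hpos hip hℓ hℓ0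
    set τ := T (Fin.last n) with hτ
    set w := u (Fin.last n) with hw
    set a : Ω → ℝ := fun ω => f (τ.symm ω) with ha
    set b : Ω → ℝ := fun ω => f (τ ω) with hb
    let f' : Ω × Bool → ℝ := fun x => if x.2 then min (a x.1) (b x.1) else max (a x.1) (b x.1)
    let pos' : Ω × Bool → E × ℝ := fun x => (pos x.1, if x.2 then 1 else 0)
    let K' : Set (E × ℝ) := {y | ∃ s : ℝ, |s| ≤ 3 * (1 - y.2) ∧ y.1 + (s + 3 * y.2) • w ∈ K ∧
      y.1 + (s - 3 * y.2) • w ∈ K}
    let T' : Fin n → Equiv.Perm (Ω × Bool) := fun i =>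
      Equiv.prodCongr (T i.castSucc) (Equiv.refl Bool)
    have hposm : ∀ ω, pos (τ.symm ω) = pos ω - (3 : ℝ) • w := by
      intro ω
      have := hpos (Fin.last n) (τ.symm ω)
      rw [← hτ, Equiv.apply_symm_apply] at this
      rw [this]; simp [hw]
    have fa : ∀ {M : Type} [Zero M] {G : Ω → M}, (∀ ω, a ω = 0 → b ω = 0 → G ω = 0) →
        HasFiniteSupport G := fun h => fin_of2 hf τ.symm τ h
    have ha2 : ∑ᶠ ω, a ω ^ 2 = Z := by
      rw [← hZ1]; exact finsum_comp_equiv τ.symm (f := fun ω => f ω ^ 2)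
    have hb2 : ∑ᶠ ω, b ω ^ 2 = Z := by
      rw [← hZ1]; exact finsum_comp_equiv τ (f := fun ω => f ω ^ 2)
    have hab2 : ∑ᶠ ω, (a ω ^ 2 + b ω ^ 2) = 2 * Z := by
      rw [finsum_add_distrib (fa fun ω h _ => by simp [h]) (fa fun ω _ h => by simp [h]), ha2, hb2]
      ring
    have fz : ∀ {G : Ω → E}, HasFiniteSupport fun ω => f ω ^ 2 • G ω :=
      fin_of hf (Equiv.refl _) fun ω h => by simp at h; simp [h]
    have hcst : ∀ y : E, ∑ᶠ ω, f ω ^ 2 • y = Z • y := by
      intro y
      rw [← hZ1, finsum_smul' (fin_of hf (Equiv.refl _) fun ω h => by simp at h; simp [h])]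
    have hap : ∑ᶠ ω, a ω ^ 2 • pos ω = Z • m + Z • (3 : ℝ) • w := by
      rw [← finsum_comp_equiv τ]
      simp only [ha, Equiv.symm_apply_apply, hτ, hpos, smul_add]
      rw [finsum_add_distrib fz fz, hm, hcst]
    have hbp : ∑ᶠ ω, b ω ^ 2 • pos ω = Z • m - Z • (3 : ℝ) • w := by
      rw [← finsum_comp_equiv τ.symm]
      simp only [hb, Equiv.apply_symm_apply, hposm, smul_sub]
      rw [finsum_sub_distrib fz fz, hm, hcst]
    set β : ℝ := (∑ᶠ ω, min (a ω) (b ω) ^ 2) / (2 * Z) with hβ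
    have hβ1 : 2 / 5 ≤ β := by
      have h1 := hip (Fin.last n)
      have h2 : ∑ᶠ ω, a ω * b ω ≤
          ∑ᶠ ω, (9 / 40 * min (a ω) (b ω) ^ 2 + 2 / 5 * (a ω ^ 2 + b ω ^ 2)) :=
        finsum_le_finsum' (fa fun ω h _ => by simp [h]) (fa fun ω h h' => by simp [h, h'])
          fun ω => amgm _ _
      rw [finsum_add_distrib (fa fun ω h h' => by simp [h, h']) (fa fun ω h h' => by simp [h, h']),
        ← mul_finsum, ← mul_finsum, hab2] at h2
      rw [hβ, le_div_iff₀ (by positivity)]
      change 49 / 50 * Z ≤ ∑ᶠ ω, a ω * b ω at h1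
      linarith
    obtain ⟨η', hη1, hη2⟩ := ih (Ω × Bool) (E × ℝ) f' pos' K' T' (fun i => (u i.castSucc, 0))
      (fun k => (ℓ k.castSucc).comp (LinearMap.fst ℝ E ℝ)) (2 * Z) (m, β)
      (fin_bool (fa fun ω h h' => by simp [f', h, h']) (fa fun ω h h' => by simp [f', h, h']))
      (by
        rintro ⟨ω, c⟩
        cases c
        · exact le_max_of_le_left (h0 _)
        · exact le_min (h0 _) (h0 _))
      (by positivity)
      (by
        rw [finsum_bool (fa fun ω h h' => by simp [f', h, h'])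
          (fa fun ω h h' => by simp [f', h, h']), ← hab2]
        exact finsum_congr fun ω => by simpa [f'] using minmax_sq _ _)
      (by
        rw [finsum_bool (fa fun ω h h' => by simp [f', h, h'])
          (fa fun ω h h' => by simp [f', h, h'])]
        have e1 : ∀ ω, f' (ω, true) ^ 2 • pos' (ω, true) + f' (ω, false) ^ 2 • pos' (ω, false)
            = (a ω ^ 2 • pos ω + b ω ^ 2 • pos ω, min (a ω) (b ω) ^ 2) := by
          intro ω
          refine Prod.ext ?_ ?_
          · simp only [f', pos', if_true, Prod.fst_add, Prod.smul_fst, Bool.false_eq_true,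
              if_false]
            rw [← add_smul, minmax_sq, add_smul]
          · simp [f', pos']
        simp only [e1]
        have fs : HasFiniteSupport fun ω =>
            (a ω ^ 2 • pos ω + b ω ^ 2 • pos ω, min (a ω) (b ω) ^ 2) :=
          fa fun ω h h' => by simp [h, h']
        refine Prod.ext ?_ ?_
        · have := (AddMonoidHom.fst E ℝ).map_finsum fs
          simp only [AddMonoidHom.coe_fst] at this
          rw [this, finsum_add_distrib (fa fun ω h _ => by simp [h])
            (fa fun ω _ h => by simp [h]), hap, hbp]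
          simp only [Prod.smul_fst]
          module
        · have := (AddMonoidHom.snd E ℝ).map_finsum fs
          simp only [AddMonoidHom.coe_snd] at this
          rw [this]
          simp only [Prod.smul_snd, smul_eq_mul, hβ]
          field_simp)
      (by
        rintro ⟨x, p⟩ ⟨s, hs1, hs2, hs3⟩ ⟨y, q⟩ ⟨t, ht1, ht2, ht3⟩ c d hc hd hcd
        refine ⟨c * s + d * t, ?_, ?_, ?_⟩
        · simp only [Prod.snd_add, Prod.smul_snd, smul_eq_mul] at hs1 ht1 ⊢
          calc |c * s + d * t| ≤ |c * s| + |d * t| := abs_add_le _ _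
            _ = c * |s| + d * |t| := by rw [abs_mul, abs_mul, abs_of_nonneg hc, abs_of_nonneg hd]
            _ ≤ c * (3 * (1 - p)) + d * (3 * (1 - q)) := by gcongr
            _ = _ := by linear_combination 3 * hcd
        · refine Set.mem_of_eq_of_mem ?_ (hK hs2 ht2 hc hd hcd)
          simp only [Prod.fst_add, Prod.smul_fst, Prod.snd_add, Prod.smul_snd, smul_eq_mul]
          module
        · refine Set.mem_of_eq_of_mem ?_ (hK hs3 ht3 hc hd hcd)
          simp only [Prod.fst_add, Prod.smul_fst, Prod.snd_add, Prod.smul_snd, smul_eq_mul]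
          module)
      (by
        rintro ⟨ω, c⟩ hx
        cases c
        · have : a ω ≠ 0 ∨ b ω ≠ 0 := by
            by_contra hc
            push Not at hc
            exact hx (by simp [f', hc.1, hc.2])
          rcases this with h | h
          · have := hs _ h
            rw [hposm] at this
            refine ⟨-3, by simp [pos'], ?_, ?_⟩ <;> simpa [pos', sub_eq_add_neg] using this
          · have := hs _ h
            rw [hτ, hpos] at this
            refine ⟨3, by simp [pos'], ?_, ?_⟩ <;> simpa [pos'] using this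
        · have h1 : a ω ≠ 0 := fun h => hx (by simp [f', h, h0, hb])
          have h2 : b ω ≠ 0 := fun h => hx (by simp [f', h, h0, ha])
          have h3 := hs _ h1
          have h4 := hs _ h2
          rw [hposm] at h3
          rw [hτ, hpos] at h4
          refine ⟨0, by simp [pos'], ?_, ?_⟩
          · simpa [pos'] using h4
          · simpa [pos', sub_eq_add_neg] using h3)
      (by
        rintro i j ⟨ω, c⟩
        simp [T', hT i.castSucc j.castSucc])
      (by
        rintro i ⟨ω, c⟩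
        simp [T', pos', hpos])
      (by
        intro i
        set σ := T i.castSucc with hσ
        have c1 : ∀ ω, τ (σ ω) = σ (τ ω) := fun ω => hT _ _ _
        have c2 : ∀ ω, τ.symm (σ ω) = σ (τ.symm ω) := fun ω => by
          rw [Equiv.symm_apply_eq, c1, Equiv.apply_symm_apply]
        have c3 : ∀ ω, τ (σ.symm ω) = σ.symm (τ ω) := fun ω => by
          rw [Equiv.eq_symm_apply, ← c1, Equiv.apply_symm_apply]
        have c4 : ∀ ω, τ.symm (σ.symm ω) = σ.symm (τ.symm ω) := fun ω => by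
          rw [Equiv.symm_apply_eq, c3, Equiv.apply_symm_apply]
        have fb : ∀ {G : Ω → ℝ}, (∀ ω, a (σ ω) = 0 → b (σ ω) = 0 → G ω = 0) →
            HasFiniteSupport G := fun h => fin_of2 hf (σ.trans τ.symm) (σ.trans τ) h
        have h1 := hip i.castSucc
        have e1 : ∑ᶠ ω, a (σ.symm ω) * a (σ ω) = ∑ᶠ ω, f (σ.symm ω) * f (σ ω) := by
          simp only [ha, c2, c4]
          exact finsum_comp_equiv τ.symm (f := fun ω => f (σ.symm ω) * f (σ ω))
        have e2 : ∑ᶠ ω, b (σ.symm ω) * b (σ ω) = ∑ᶠ ω, f (σ.symm ω) * f (σ ω) := by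
          simp only [hb, c1, c3]
          exact finsum_comp_equiv τ (f := fun ω => f (σ.symm ω) * f (σ ω))
        rw [finsum_bool (fb fun ω h h' => by simp [f', T', ← hσ, h, h'])
          (fb fun ω h h' => by simp [f', T', ← hσ, h, h'])]
        calc 49 / 50 * (2 * Z) ≤ ∑ᶠ ω, a (σ.symm ω) * a (σ ω) + ∑ᶠ ω, b (σ.symm ω) * b (σ ω) := by
              rw [e1, e2]; linarith
          _ = ∑ᶠ ω, (a (σ.symm ω) * a (σ ω) + b (σ.symm ω) * b (σ ω)) :=
              (finsum_add_distrib (fb fun ω h _ => by simp [h]) (fb fun ω _ h => by simp [h])).symm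
          _ ≤ _ := by
              refine finsum_le_finsum' (fb fun ω h h' => by simp [h, h'])
                (fb fun ω h h' => by simp [f', T', ← hσ, h, h']) fun ω => ?_
              simpa [f', T', ← hσ] using rearr _ _ _ _)
      (by
        rintro k ⟨x, p⟩ ⟨s, _, hs2, _⟩
        have := hℓ k.castSucc _ hs2
        rw [map_add, map_smul, hw, hℓ0 _ _ (Fin.le_last _)] at this
        simpa using this)
      (by
        intro k j hkj
        simpa using hℓ0 k.castSucc j.castSucc (by simpa using hkj))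
    have hx : (m, β) + ∑ i, η' i • ((u i.castSucc, 0) : E × ℝ)
        = (m + ∑ i, η' i • u i.castSucc, β) := by
      refine Prod.ext ?_ ?_
      · simp [Prod.fst_sum]
      · simp [Prod.snd_sum]
    rw [hx] at hη1
    simp only [hx] at hη2
    set x := m + ∑ i, η' i • u i.castSucc with hxdef
    obtain ⟨s, hs1, hs2, hs3⟩ := hη1
    simp only at hs1 hs2 hs3
    have hlw : ∀ k, ℓ k w = 0 := fun k => hℓ0 _ _ (Fin.le_last _)
    have hl : |ℓ (Fin.last n) x| ≤ 1 / 5 := by
      have := hℓ (Fin.last n) _ hs2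
      rwa [map_add, map_smul, hlw, smul_zero, add_zero] at this
    have seg : ∀ r : ℝ, s - 3 * β ≤ r → r ≤ s + 3 * β → x + r • w ∈ K := by
      intro r h1 h2
      have hb0 : 0 < 6 * β := by linarith
      have := hK hs2 hs3 (a := (r - (s - 3 * β)) / (6 * β)) (b := (s + 3 * β - r) / (6 * β))
        (div_nonneg (by linarith) hb0.le) (div_nonneg (by linarith) hb0.le)
        (by field_simp; ring)
      have e : x + r • w = ((r - (s - 3 * β)) / (6 * β)) • (x + (s + 3 * β) • w) +
          ((s + 3 * β - r) / (6 * β)) • (x + (s - 3 * β) • w) := by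
        have hβ0 : β ≠ 0 := by linarith
        match_scalars <;> (field_simp; ring)
      rw [e]; exact this
    obtain ⟨hl1, hl2⟩ := abs_le.1 hl
    obtain ⟨hs4, hs5⟩ := abs_le.1 hs1
    obtain ⟨r, hr1, hr2⟩ : ∃ r : ℝ, x + r • w ∈ K ∧
        (r - ℓ (Fin.last n) x = 1 ∨ r - ℓ (Fin.last n) x = -1) := by
      rcases le_total 0 s with h | h
      · exact ⟨ℓ (Fin.last n) x + 1, seg _ (by linarith) (by linarith), Or.inl (by ring)⟩
      · exact ⟨ℓ (Fin.last n) x - 1, seg _ (by linarith) (by linarith), Or.inr (by ring)⟩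
    have hz : m + ∑ i, (Fin.snoc η' r : Fin (n + 1) → ℝ) i • u i = x + r • w := by
      rw [Fin.sum_univ_castSucc]
      simp only [Fin.snoc_castSucc, Fin.snoc_last, hxdef, hw, add_assoc]
    refine ⟨Fin.snoc η' r, by rw [hz]; exact hr1, fun k => ?_⟩
    rw [hz, map_add, map_smul, hlw, smul_zero, add_zero]
    refine Fin.lastCases ?_ (fun k => ?_) k
    · simpa using hr2
    · simpa using hη2 k

/-- symmetric version: no mean condition -/
theorem split_symm (n : ℕ) (Ω E : Type) [AddCommGroup E] [Module ℝ E] (f : Ω → ℝ) (pos : Ω → E)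
    (K : Set E) (T : Fin n → Equiv.Perm Ω) (u : Fin n → E) (ℓ : Fin n → E →ₗ[ℝ] ℝ) (Z : ℝ)
    (hf : HasFiniteSupport f) (h0 : ∀ ω, 0 ≤ f ω) (hZ : 0 < Z) (hZ1 : ∑ᶠ ω, f ω ^ 2 = Z)
    (hK : Convex ℝ K) (hKs : ∀ x ∈ K, -x ∈ K) (hs : ∀ ω, f ω ≠ 0 → pos ω ∈ K)
    (hT : ∀ i j ω, T i (T j ω) = T j (T i ω)) (hpos : ∀ i ω, pos (T i ω) = pos ω + (3 : ℝ) • u i)
    (hip : ∀ i, 49 / 50 * Z ≤ ∑ᶠ ω, f ((T i).symm ω) * f (T i ω))
    (hℓ : ∀ k, ∀ x ∈ K, |ℓ k x| ≤ 1 / 5) (hℓ0 : ∀ k j, k ≤ j → ℓ k (u j) = 0) :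
    ∃ η : Fin n → ℝ, ∑ i, η i • u i ∈ K ∧
      ∀ k, η k - ℓ k (∑ i, η i • u i) = 1 ∨ η k - ℓ k (∑ i, η i • u i) = -1 := by
  let T' : Fin n → Equiv.Perm (Ω × Bool) := fun i =>
    Equiv.prodCongrLeft fun c => if c then T i else (T i).symm
  have fz : ∀ {M : Type} [Zero M] {G : Ω → M}, (∀ ω, f ω = 0 → G ω = 0) → HasFiniteSupport G :=
    fun h => fin_of hf (Equiv.refl _) h
  have hsy : ∀ i j ω, (T i).symm ((T j).symm ω) = (T j).symm ((T i).symm ω) := by
    intro i j ω
    rw [Equiv.symm_apply_eq, Equiv.symm_apply_eq, hT, Equiv.apply_symm_apply,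
      Equiv.apply_symm_apply]
  have := split n (Ω × Bool) E (fun x => f x.1) (fun x => if x.2 then pos x.1 else -pos x.1) K T'
    u ℓ (2 * Z) 0 (fin_bool hf hf) (fun x => h0 _) (by positivity)
    (by
      rw [finsum_bool (fz fun ω h => by simp [h]) (fz fun ω h => by simp [h]),
        finsum_add_distrib (fz fun ω h => by simp [h]) (fz fun ω h => by simp [h]), hZ1]
      ring)
    (by
      rw [finsum_bool (fz fun ω h => by simp [h]) (fz fun ω h => by simp [h])]
      simp)
    hK
    (by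
      rintro ⟨ω, c⟩ h
      cases c
      · exact hKs _ (hs ω h)
      · exact hs ω h)
    (by
      rintro i j ⟨ω, c⟩
      cases c
      · simp [T', hsy i j]
      · simp [T', hT i j])
    (by
      rintro i ⟨ω, c⟩
      cases c
      · have := hpos i ((T i).symm ω)
        rw [Equiv.apply_symm_apply] at this
        simp [T', this]
      · simp [T', hpos])
    (by
      intro i
      have fb : ∀ {G : Ω → ℝ}, (∀ ω, f (T i ω) = 0 → G ω = 0) → HasFiniteSupport G :=
        fun h => fin_of hf (T i) h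
      rw [finsum_bool (fb fun ω h => by simp [T', Equiv.prodCongrLeft, h])
        (fb fun ω h => by simp [T', Equiv.prodCongrLeft, h])]
      have e : ∀ ω, f ((T' i).symm (ω, true)).1 * f (T' i (ω, true)).1 +
          f ((T' i).symm (ω, false)).1 * f (T' i (ω, false)).1
          = 2 * (f ((T i).symm ω) * f (T i ω)) := by
        intro ω
        simp [T', Equiv.prodCongrLeft]
        ring
      simp only [e]
      rw [← mul_finsum]
      linarith [hip i])
    hℓ hℓ0
  simpa using this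

end Vale.Agent.P262
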