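import Vale.Agent.P262.Filter

/-!
P262: Chobanyan's transference from signings to rearrangements.
-/

namespace Vale.Agent.P262

open Finset

theorem exists_reorder {N : ℕ} (P : Fin N → Prop) [DecidablePred P] :
    ∃ π : Equiv.Perm (Fin N), ∀ k ≤ N, ∃ k' ≤ N,
      (univ.filter fun i : Fin N => (π.symm i).val < k) = univ.filter (fun i => P i ∧ i.val < k') ∨
      (univ.filter fun i : Fin N => ¬ (π.symm i).val < k) =
        univ.filter (fun i => ¬ P i ∧ i.val < k') := by
  let key : Fin N → ℕ := fun i => if P i then i.val else 2 * N - i.val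
  have hinj : Function.Injective key := by
    intro i j h
    have := i.2
    have := j.2
    simp only [key] at h
    split_ifs at h <;> exact Fin.ext (by omega)
  let π := Tuple.sort key
  have hm : StrictMono (key ∘ π) :=
    (Tuple.monotone_sort key).strictMono_of_injective (hinj.comp π.injective)
  refine ⟨π, fun k hk => ?_⟩
  rcases hk.eq_or_lt with rfl | hk
  · refine ⟨0, Nat.zero_le _, Or.inr ?_⟩
    ext i
    simp
  · have h1 : ∀ i : Fin N, (π.symm i).val < k ↔ key i < key (π ⟨k, hk⟩) := by
      intro i
      have := hm.lt_iff_lt (a := π.symm i) (b := ⟨k, hk⟩)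
      simp only [Function.comp_apply, Equiv.apply_symm_apply] at this
      rw [this, Fin.lt_def]
    simp only [h1]
    generalize π ⟨k, hk⟩ = j
    have hj := j.2
    by_cases hP : P j
    · refine ⟨j.val, hj.le, Or.inl ?_⟩
      ext i
      have := i.2
      simp only [mem_filter, mem_univ, true_and, key, if_pos hP]
      split_ifs with h
      · simp [h]
      · simp only [h, false_and, iff_false]
        omega
    · refine ⟨j.val + 1, hj, Or.inr ?_⟩
      ext i
      have := i.2
      simp only [mem_filter, mem_univ, true_and, key, if_neg hP]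
      split_ifs with h
      · simp only [h, not_true, false_and, iff_false]
        omega
      · simp only [h, not_false_iff, true_and]
        omega

theorem transfer {E : Type} [NormedAddCommGroup E] [NormedSpace ℝ E] {N : ℕ} (R : ℝ)
    (v : Fin N → E) (h0 : ∑ i, v i = 0)
    (hs : ∀ π : Equiv.Perm (Fin N), ∃ ε : Fin N → ℝ, (∀ i, ε i = 1 ∨ ε i = -1) ∧
      ∀ k ≤ N, ‖∑ i : Fin N with i.val < k, ε i • v (π i)‖ ≤ R) :
    ∃ π : Equiv.Perm (Fin N), ∀ k ≤ N, ‖∑ i : Fin N with i.val < k, v (π i)‖ ≤ R := by
  classical
  let β : Equiv.Perm (Fin N) → ℝ := fun π => (range (N + 1)).sup' ⟨0, by simp⟩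
    fun k => ‖∑ i : Fin N with i.val < k, v (π i)‖
  have hβ : ∀ π k, k ≤ N → ‖∑ i : Fin N with i.val < k, v (π i)‖ ≤ β π := fun π k hk =>
    le_sup' (fun k => ‖∑ i : Fin N with i.val < k, v (π i)‖) (mem_range.2 (by omega))
  obtain ⟨π, _, hπ⟩ := exists_min_image univ β ⟨1, mem_univ _⟩
  obtain ⟨ε, hε, hR⟩ := hs π
  obtain ⟨ρ, hρ⟩ := exists_reorder fun i => ε i = 1
  have h1 : β (ρ.trans π) ≤ (β π + R) / 2 := by
    refine sup'_le _ _ fun k hk => ?_
    have e : ∑ i : Fin N with i.val < k, v ((ρ.trans π) i) =
        ∑ i : Fin N with (ρ.symm i).val < k, v (π i) := by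
      rw [sum_filter, sum_filter,
        ← Equiv.sum_comp ρ (fun i => if (ρ.symm i).val < k then v (π i) else 0)]
      simp
    rw [e]
    obtain ⟨k', hk', h2⟩ := hρ k (by have := mem_range.1 hk; omega)
    have h3 := hβ π k' hk'
    have h4 := hR k' hk'
    rcases h2 with h2 | h2
    · rw [h2]
      have e2 : ∑ i : Fin N with ε i = 1 ∧ i.val < k', v (π i) = (1 / 2 : ℝ) •
          (∑ i : Fin N with i.val < k', v (π i) + ∑ i : Fin N with i.val < k', ε i • v (π i)) := by
        rw [← sum_add_distrib, smul_sum, sum_filter, sum_filter]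
        refine sum_congr rfl fun i _ => ?_
        by_cases h5 : i.val < k'
        · rcases hε i with h6 | h6
          · simp only [h5, h6, and_self, if_true]
            module
          · rw [if_neg (by rw [h6]; norm_num), if_pos h5, h6]
            module
        · simp [h5]
      rw [e2, norm_smul]
      have := norm_add_le (∑ i : Fin N with i.val < k', v (π i))
        (∑ i : Fin N with i.val < k', ε i • v (π i))
      norm_num
      linarith
    · have h5 := sum_filter_add_sum_filter_not univ (fun i : Fin N => (ρ.symm i).val < k)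
        (fun i => v (π i))
      rw [Equiv.sum_comp π v, h0, h2] at h5
      have e2 : ∑ i : Fin N with ¬ ε i = 1 ∧ i.val < k', v (π i) = (1 / 2 : ℝ) •
          (∑ i : Fin N with i.val < k', v (π i) - ∑ i : Fin N with i.val < k', ε i • v (π i)) := by
        rw [← sum_sub_distrib, smul_sum, sum_filter, sum_filter]
        refine sum_congr rfl fun i _ => ?_
        by_cases h5 : i.val < k'
        · rcases hε i with h6 | h6
          · rw [if_neg (by simp [h6]), if_pos h5, h6]
            module
          · rw [if_pos ⟨by rw [h6]; norm_num, h5⟩, if_pos h5, h6]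
            module
        · simp [h5]
      rw [eq_neg_of_add_eq_zero_left h5, norm_neg, e2, norm_smul]
      have := norm_sub_le (∑ i : Fin N with i.val < k', v (π i))
        (∑ i : Fin N with i.val < k', ε i • v (π i))
      norm_num
      linarith
  have h2 := hπ (ρ.trans π) (mem_univ _)
  exact ⟨π, fun k hk => (hβ π k hk).trans (by linarith)⟩

end Vale.Agent.P262
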