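import Vale.Agent.P262.Flat

/-!
P262: vector tests (spectral bands) and tests on all initial sums (chaining).
-/

namespace Vale.Agent.P262

open Finset

variable {F : Type} [NormedAddCommGroup F] [InnerProductSpace ℝ F]

theorem svd [FiniteDimensional ℝ F] {N n : ℕ} (hn : Module.finrank ℝ F = n) (a : Fin N → F) :
    ∃ (b : OrthonormalBasis (Fin n) ℝ F) (s : Fin n → ℝ), Antitone s ∧
      ∀ t t', ∑ i, inner ℝ (b t) (a i) * inner ℝ (b t') (a i) = if t = t' then s t else 0 := by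
  let T : F →ₗ[ℝ] F :=
    { toFun := fun x => ∑ i, (inner ℝ x (a i) : ℝ) • a i
      map_add' := fun x y => by simp [inner_add_left, add_smul, sum_add_distrib]
      map_smul' := fun c x => by simp [real_inner_smul_left, smul_sum, mul_smul] }
  have hT : ∀ x y, inner ℝ x (T y) = ∑ i, inner ℝ x (a i) * inner ℝ y (a i) := by
    intro x y
    simp [T, inner_sum, real_inner_smul_right, mul_comm]
  have hs : T.IsSymmetric := by
    intro x y
    rw [real_inner_comm, hT, hT]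
    exact sum_congr rfl fun i _ => mul_comm _ _
  refine ⟨hs.eigenvectorBasis hn, hs.eigenvalues hn, hs.eigenvalues_antitone hn, fun t t' => ?_⟩
  rw [← hT, hs.apply_eigenvectorBasis, real_inner_smul_right,
    orthonormal_iff_ite.1 (hs.eigenvectorBasis hn).orthonormal]
  split_ifs with h
  · subst h; simp
  · simp

theorem geo_le (r : ℝ) (h0 : 0 ≤ r) (h1 : r < 1) (n : ℕ) : ∑ i ∈ range n, r ^ i ≤ 1 / (1 - r) := by
  rw [le_div_iff₀ (by linarith), geom_sum_mul_neg]
  have := pow_nonneg h0 n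
  linarith

theorem vec [FiniteDimensional ℝ F] {N : ℕ} {𝒜 : Type} [Fintype 𝒜] (a : 𝒜 → Fin N → F)
    (μ t : 𝒜 → ℝ) (L : Fin N → Fin N → ℝ) (ht : ∀ α, 0 < t α)
    (hμ : ∀ α, ∑ i, ‖a α i‖ ^ 2 ≤ μ α)
    (hcost : ∀ i, ∑ α, ‖a α i‖ ^ 2 * (μ α ^ 4 / t α ^ 5) ≤ 1 / 10 ^ 29)
    (hL0 : ∀ k i, k ≤ i → L k i = 0) (hL1 : ∀ k, ∑ i, L k i ^ 2 ≤ 1 / 10 ^ 9)
    (hL2 : ∀ i, ∑ k, L k i ^ 2 ≤ 1 / 10 ^ 9) :
    ∃ η : Fin N → ℝ, (∀ α, ‖∑ i, η i • a α i‖ ^ 2 ≤ 4 * 300 ^ 2 * μ α + 40 * t α) ∧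
      ∀ k, (η k - ∑ i, η i * L k i = 1 ∨ η k - ∑ i, η i * L k i = -1) ∧ |η k| ≤ 6 / 5 := by
  classical
  obtain ⟨n, hn⟩ : ∃ n, Module.finrank ℝ F = n := ⟨_, rfl⟩
  choose b s hs hb using fun α => svd hn (a α)
  let band : Fin n → Fin (n + 1) := fun x =>
    ⟨Nat.log 2 (x + 1), lt_of_le_of_lt (Nat.log_le_self _ _) (by omega)⟩
  let grp : (𝒜 × Fin n) ⊕ Fin N → (𝒜 × Fin (n + 1)) ⊕ Fin N :=
    Sum.map (fun p => (p.1, band p.2)) id
  have hfl : ∀ (G : (𝒜 × Fin n) ⊕ Fin N → ℝ) α β, ∑ x with grp x = Sum.inl (α, β), G x =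
      ∑ x with band x = β, G (Sum.inl (α, x)) := by
    intro G α β
    rw [sum_filter, sum_filter, Fintype.sum_sum_type, Fintype.sum_prod_type, sum_eq_single α]
    · simp [grp]
    · intro α' _ h
      simp [grp, h]
    · simp
  have hfr : ∀ (G : (𝒜 × Fin n) ⊕ Fin N → ℝ) k, ∑ x with grp x = Sum.inr k, G x =
      G (Sum.inr k) := by
    intro G k
    rw [sum_filter, Fintype.sum_sum_type]
    simp [grp]
  have hs2 : ∀ α x, ∑ i, inner ℝ (b α x) (a α i) ^ 2 = s α x := by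
    intro α x
    have := hb α x x
    simpa [sq] using this
  have hs0 : ∀ α x, 0 ≤ s α x := fun α x => by rw [← hs2]; positivity
  have hsμ : ∀ α, ∑ x, s α x ≤ μ α := by
    intro α
    simp only [← hs2]
    rw [sum_comm]
    simp only [OrthonormalBasis.sum_sq_inner_right]
    exact hμ α
  have hμ0 : ∀ α, 0 ≤ μ α := fun α => le_trans (by positivity) (hμ α)
  have hsop : ∀ α x, s α x ≤ μ α / 2 ^ (band x : ℕ) := by
    intro α x
    rw [le_div_iff₀ (by positivity)]
    have h1 : ((2 ^ (band x : ℕ) : ℕ) : ℝ) ≤ ((x : ℕ) + 1 : ℕ) := by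
      exact_mod_cast Nat.pow_log_le_self 2 (Nat.succ_ne_zero _)
    have h2 : ∑ y ∈ Iic x, s α x ≤ ∑ y ∈ Iic x, s α y :=
      sum_le_sum fun y hy => hs α (mem_Iic.1 hy)
    rw [sum_const, Fin.card_Iic, nsmul_eq_mul] at h2
    have h3 : ∑ y ∈ Iic x, s α y ≤ ∑ y, s α y :=
      sum_le_sum_of_subset_of_nonneg (subset_univ _) fun _ _ _ => hs0 _ _
    push_cast at h1 h2
    nlinarith [hs0 α x, hsμ α]
  have hcard : ∀ β : Fin (n + 1), ((univ.filter fun x => band x = β).card : ℝ) ≤ 2 * 2 ^ (β : ℕ) := by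
    intro β
    have : (univ.filter fun x => band x = β).card ≤ (range (2 ^ ((β : ℕ) + 1))).card := by
      refine card_le_card_of_injOn (fun x => (x : ℕ)) (fun x hx => ?_)
        (fun x _ y _ h => Fin.ext h)
      have h1 := (mem_filter.1 (mem_coe.1 hx)).2
      have h2 := Nat.lt_pow_succ_log_self (b := 2) (by norm_num) ((x : ℕ) + 1)
      have h3 : Nat.log 2 (x + 1) = β := congrArg Fin.val h1
      rw [h3] at h2
      simp only [coe_range, Set.mem_Iio]
      omega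
    rw [card_range] at this
    have h4 : ((univ.filter fun x => band x = β).card : ℝ) ≤ ((2 ^ ((β : ℕ) + 1) : ℕ) : ℝ) := by
      exact_mod_cast this
    push_cast at h4
    linarith [pow_succ (2 : ℝ) β]
  let μb : 𝒜 → Fin (n + 1) → ℝ := fun α β => ∑ x with band x = β, s α x
  have hμb0 : ∀ α β, 0 ≤ μb α β := fun α β => sum_nonneg fun _ _ => hs0 _ _
  have hμb : ∀ α β, μb α β ≤ μ α := fun α β =>
    (sum_le_sum_of_subset_of_nonneg (subset_univ _) fun _ _ _ => hs0 _ _).trans (hsμ α)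
  obtain ⟨η, hη1, hη2⟩ := flat grp
    (Sum.elim (fun p i => inner ℝ (b p.1 p.2) (a p.1 i)) L)
    (Sum.elim (fun p => μ p.1 / 2 ^ (p.2 : ℕ)) fun _ => 1 / 10 ^ 9)
    (Sum.elim (fun p => μb p.1 p.2) fun _ => 1 / 10 ^ 9)
    (Sum.elim (fun p => t p.1 * (9 / 10) ^ (p.2 : ℕ)) fun _ => 1 / 200) Sum.inr
    (by
      rintro (⟨α, β⟩ | k)
      · have := hμ0 α
        simp only [Sum.elim_inl]
        positivity
      · simp)
    (by
      rintro (⟨α, β⟩ | k)
      · have := ht α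
        simp only [Sum.elim_inl]
        positivity
      · simp)
    (by
      rintro (⟨α, β⟩ | k) x
      · simp only [hfl, Sum.elim_inl]
        calc ∑ i, (∑ y with band y = β, x (Sum.inl (α, y)) * inner ℝ (b α y) (a α i)) ^ 2
            = ∑ y with band y = β, ∑ y' with band y' = β, x (Sum.inl (α, y)) * x (Sum.inl (α, y')) *
                ∑ i, inner ℝ (b α y) (a α i) * inner ℝ (b α y') (a α i) := by
              simp only [sq, sum_mul_sum]
              simp only [mul_sum]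
              rw [sum_comm]
              refine sum_congr rfl fun y _ => ?_
              rw [sum_comm]
              exact sum_congr rfl fun y' _ => sum_congr rfl fun i _ => by ring
          _ = ∑ y with band y = β, s α y * x (Sum.inl (α, y)) ^ 2 := by
              refine sum_congr rfl fun y hy => ?_
              simp only [hb, mul_ite, mul_zero, sum_ite_eq, if_pos hy]
              ring
          _ ≤ _ := by
              rw [mul_sum]
              refine sum_le_sum fun y hy => mul_le_mul_of_nonneg_right ?_ (sq_nonneg _)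
              rw [← (mem_filter.1 hy).2]
              exact hsop α y
      · simp only [hfr, Sum.elim_inr, mul_pow, ← mul_sum]
        rw [mul_comm]
        exact mul_le_mul_of_nonneg_right (hL1 k) (sq_nonneg _))
    (by
      rintro (⟨α, β⟩ | k)
      · simp only [hfl, Sum.elim_inl]
        rw [sum_comm]
        simp only [hs2]
        exact le_rfl
      · simp only [hfr, Sum.elim_inr]
        exact hL1 k)
    (by
      intro i
      rw [Fintype.sum_sum_type, Fintype.sum_prod_type]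
      simp only [card_eq_sum_ones, Nat.cast_sum, Nat.cast_one, hfl, hfr, Sum.elim_inl,
        Sum.elim_inr]
      have h1 : ∀ α, ∑ β : Fin (n + 1), (∑ y with band y = β, inner ℝ (b α y) (a α i) ^ 2) *
          ((∑ y with band y = β, (1 : ℝ)) * (μ α / 2 ^ (β : ℕ) * μb α β) ^ 2 /
            (t α * (9 / 10) ^ (β : ℕ)) ^ 5) ≤ 2 * (‖a α i‖ ^ 2 * (μ α ^ 4 / t α ^ 5)) := by
        intro α
        rw [← (b α).sum_sq_inner_right, ← Finset.sum_fiberwise univ band, ← mul_assoc,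
          mul_comm 2, mul_assoc, sum_mul]
        refine sum_le_sum fun β _ => mul_le_mul_of_nonneg_left ?_ (by positivity)
        rw [sum_const, nsmul_eq_mul, mul_one]
        have h2 := hcard β
        have h3 := ht α
        have h4 := hμ0 α
        have h5 := hμb0 α β
        have h6 := hμb α β
        have h7 : (1 : ℝ) ≤ (2 * (9 / 10) ^ 5) ^ (β : ℕ) := one_le_pow₀ (by norm_num)
        calc _ ≤ (2 * 2 ^ (β : ℕ)) * (μ α / 2 ^ (β : ℕ) * μ α) ^ 2 /
              (t α * (9 / 10) ^ (β : ℕ)) ^ 5 := by gcongr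
          _ = 2 * (μ α ^ 4 / t α ^ 5) / (2 * (9 / 10) ^ 5) ^ (β : ℕ) := by
              rw [mul_pow (2 : ℝ), ← pow_mul, mul_comm 5, pow_mul]
              field_simp
          _ ≤ _ := div_le_self (by positivity) h7
      have h2 := sum_le_sum fun α (_ : α ∈ univ) => h1 α
      rw [← mul_sum] at h2
      rw [← sum_mul]
      have h3 := hcost i
      have h4 := hL2 i
      norm_num at h2 h3 h4 ⊢
      linarith)
    (by
      intro k i h
      exact hL0 k i h)
    (by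
      intro k
      simp only [grp, Sum.map_inr, id, Sum.elim_inr]
      norm_num)
  refine ⟨η, fun α => ?_, fun k => ⟨hη2 k, ?_⟩⟩
  · rw [← (b α).sum_sq_inner_right, ← Finset.sum_fiberwise univ band]
    have h1 : ∀ β, ∑ y with band y = β, inner ℝ (b α y) (∑ i, η i • a α i) ^ 2 ≤
        4 * (300 ^ 2 * μb α β + t α * (9 / 10) ^ (β : ℕ)) := by
      intro β
      have := hη1 (Sum.inl (α, β))
      simp only [hfl, Sum.elim_inl] at this
      simpa only [inner_sum, real_inner_smul_right] using this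
    refine (sum_le_sum fun β _ => h1 β).trans ?_
    rw [← mul_sum, sum_add_distrib, ← mul_sum, ← mul_sum, Finset.sum_fiberwise,
      Fin.sum_univ_eq_sum_range (fun β => (9 / 10 : ℝ) ^ β)]
    have h2 := geo_le (9 / 10) (by norm_num) (by norm_num) (n + 1)
    have h3 := mul_le_mul_of_nonneg_left h2 (ht α).le
    have h4 := hsμ α
    norm_num at h3 ⊢
    linarith
  · have h1 := hη1 (Sum.inr k)
    have h2 := hη2 k
    simp only [hfr, Sum.elim_inr] at h1 h2
    have h3 : |∑ i, η i * L k i| ≤ 1 / 5 := abs_le_of_sq_le_sq (by linarith) (by norm_num)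
    obtain ⟨h4, h5⟩ := abs_le.1 h3
    rcases h2 with h | h <;> exact abs_le.2 ⟨by linarith, by linarith⟩

omit [InnerProductSpace ℝ F] in
theorem dyadic_chain (ω : ℝ → F) (h0 : ω 0 = 0) (θ : ℕ → ℝ) (hθ : ∀ m, 0 ≤ θ m) (M : ℕ)
    (h : ∀ m ≤ M, ∀ q : ℕ, q < 2 ^ m → ‖ω ((q + 1) / 2 ^ m) - ω (q / 2 ^ m)‖ ≤ θ m) :
    ∀ m ≤ M, ∀ q : ℕ, q ≤ 2 ^ m → ‖ω (q / 2 ^ m)‖ ≤ ∑ j ∈ range (m + 1), θ j := by
  intro m
  induction m with
  | zero =>
    intro hm q hq
    have h1 := h 0 hm 0 (by norm_num)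
    interval_cases q
    · simpa [h0] using hθ 0
    · simpa [h0] using h1
  | succ m ih =>
    intro hm q hq
    rw [sum_range_succ]
    have e : ∀ q' : ℕ, ((2 * q' : ℕ) : ℝ) / 2 ^ (m + 1) = q' / 2 ^ m := by
      intro q'; push_cast; field_simp; ring
    obtain ⟨q', rfl | rfl⟩ := Nat.even_or_odd' q
    · rw [e]
      linarith [ih (by omega) q' (by rw [pow_succ] at hq; omega), hθ (m + 1)]
    · have h1 := ih (by omega) q' (by rw [pow_succ] at hq; omega)
      have h2 := h (m + 1) hm (2 * q') (by omega)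
      rw [e] at h2
      have h3 := norm_sub_norm_le (ω ((((2 * q' : ℕ) : ℝ) + 1) / 2 ^ (m + 1))) (ω (q' / 2 ^ m))
      push_cast at h2 h3 ⊢
      linarith

/-- fractional time change for one test -/
theorem frac {N : ℕ} (a : Fin N → F) (μ : ℝ) (hμ0 : 0 < μ) (hμ : ∑ i, ‖a i‖ ^ 2 ≤ μ) :
    ∃ φ : Fin N → ℝ → ℝ, (∀ i, Monotone (φ i)) ∧ (∀ i, φ i 0 = 0) ∧ (∀ i u, φ i u ≤ 1) ∧
      (∀ u u', 0 ≤ u → u ≤ u' → ∑ i, ‖a i‖ ^ 2 * (φ i u' - φ i u) ≤ μ * (u' - u)) ∧
      ∀ k : ℕ, ∃ x, 0 ≤ x ∧ x ≤ 1 ∧ ∀ i : Fin N, φ i x • a i = if (i : ℕ) < k then a i else 0 := by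
  let w : ℕ → ℝ := fun i => if h : i < N then ‖a ⟨i, h⟩‖ ^ 2 else 0
  have hw0 : ∀ i, 0 ≤ w i := fun i => by simp only [w]; split_ifs <;> positivity
  have hwi : ∀ i : Fin N, w i = ‖a i‖ ^ 2 := fun i => by simp [w]
  let s : ℕ → ℝ := fun k => ∑ i ∈ range k, w i
  have hs : ∀ k, s (k + 1) = s k + w k := fun k => sum_range_succ _ _
  have hsm : Monotone s := monotone_nat_of_le_succ fun k => by rw [hs]; linarith [hw0 k]
  have hs0 : s 0 = 0 := by simp [s]
  have hsN : ∀ k, s k ≤ μ := by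
    intro k
    have h1 : s N ≤ μ := by
      simp only [s]
      rw [← Fin.sum_univ_eq_sum_range]
      simpa only [hwi] using hμ
    rcases le_total k N with h | h
    · exact (hsm h).trans h1
    · refine le_trans (le_of_eq ?_) h1
      symm
      refine sum_subset (range_mono h) fun i _ hi => ?_
      simp only [w]
      rw [dif_neg (by simpa using hi)]
  let g : ℕ → ℝ → ℝ := fun i u => min (μ * u) (s (i + 1)) - min (μ * u) (s i)
  have hg1 : ∀ i u, g i u ≤ w i := by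
    intro i u
    simp only [g, hs, min_def]
    split_ifs <;> linarith [hw0 i]
  have hgm : ∀ i, Monotone (g i) := by
    intro i u u' h
    have := mul_le_mul_of_nonneg_left h hμ0.le
    simp only [g, hs, min_def]
    split_ifs <;> linarith [hw0 i]
  have hg0 : ∀ i, g i 0 = 0 := by
    intro i
    have h1 : 0 ≤ s i := hs0 ▸ hsm (Nat.zero_le i)
    have h2 : 0 ≤ s (i + 1) := hs0 ▸ hsm (Nat.zero_le _)
    simp [g, h1, h2]
  have hgw : ∀ i u, 0 ≤ u → w i * (g i u / w i) = g i u := by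
    intro i u hu
    rcases eq_or_ne (w i) 0 with h | h
    · have h1 := hg1 i u
      have h2 := hgm i hu
      rw [hg0] at h2
      rw [h, zero_mul]
      linarith
    · field_simp
  refine ⟨fun i u => g i u / w i, fun i u u' h => div_le_div_of_nonneg_right (hgm i h) (hw0 i),
    fun i => by simp [hg0], fun i u => div_le_one_of_le₀ (hg1 i u) (hw0 i), ?_, fun k => ?_⟩
  · intro u u' hu huu
    simp only [← hwi, mul_sub, hgw _ _ hu, hgw _ _ (hu.trans huu)]
    rw [Fin.sum_univ_eq_sum_range (fun i => g i u' - g i u), sum_sub_distrib]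
    simp only [g]
    rw [sum_range_sub (fun i => min (μ * u') (s i)), sum_range_sub (fun i => min (μ * u) (s i)),
      hs0]
    have h1 := mul_le_mul_of_nonneg_left huu hμ0.le
    have h2 := mul_nonneg hμ0.le hu
    simp only [min_def]
    split_ifs <;> linarith
  · have h1 : 0 ≤ s k := hs0 ▸ hsm (Nat.zero_le k)
    refine ⟨s k / μ, by positivity, div_le_one_of_le₀ (hsN k) hμ0.le, fun i => ?_⟩
    have e : μ * (s k / μ) = s k := by field_simp
    split_ifs with h
    · have h2 : g i (s k / μ) = w i := by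
        simp only [g, e]
        rw [min_eq_right (hsm h), min_eq_right (hsm h.le), hs]
        ring
      simp only [h2]
      rcases eq_or_ne (w i) 0 with h3 | h3
      · have : a i = 0 := by simpa [hwi] using h3
        simp [this]
      · rw [div_self h3, one_smul]
    · have h2 : g i (s k / μ) = 0 := by
        simp only [g, e]
        rw [min_eq_left (hsm (by omega)), min_eq_left (hsm (by omega)), sub_self]
      simp [h2]

theorem pref [FiniteDimensional ℝ F] {N : ℕ} {𝒜 : Type} [Fintype 𝒜] (a : 𝒜 → Fin N → F)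
    (μ t : 𝒜 → ℝ) (L : Fin N → Fin N → ℝ) (ht : ∀ α, 0 < t α) (hμ0 : ∀ α, 0 < μ α)
    (hμ : ∀ α, ∑ i, ‖a α i‖ ^ 2 ≤ μ α)
    (hcost : ∀ i, ∑ α, ‖a α i‖ ^ 2 * (μ α ^ 4 / t α ^ 5) ≤ 1 / 10 ^ 30)
    (hL0 : ∀ k i, k ≤ i → L k i = 0) (hL1 : ∀ k, ∑ i, L k i ^ 2 ≤ 1 / 10 ^ 9)
    (hL2 : ∀ i, ∑ k, L k i ^ 2 ≤ 1 / 10 ^ 9) :
    ∃ η : Fin N → ℝ, (∀ α (k : ℕ), ‖∑ i : Fin N with i.val < k, η i • a α i‖ ≤
        7 * √(4 * 300 ^ 2 * μ α + 40 * t α)) ∧
      ∀ k, η k - ∑ i, η i * L k i = 1 ∨ η k - ∑ i, η i * L k i = -1 := by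
  classical
  choose φ hφm hφ0 hφ1 hφe hφk using fun α => frac (a α) (μ α) (hμ0 α) (hμ α)
  have hφn : ∀ α i u, 0 ≤ u → 0 ≤ φ α i u := fun α i u hu => hφ0 α i ▸ hφm α i hu
  have hsq : ∀ α i u u', 0 ≤ u → u ≤ u' → ‖(φ α i u' - φ α i u) • a α i‖ ^ 2 ≤
      ‖a α i‖ ^ 2 * (φ α i u' - φ α i u) := by
    intro α i u u' hu huu
    rw [norm_smul, mul_pow, Real.norm_eq_abs, sq_abs, mul_comm]
    refine mul_le_mul_of_nonneg_left ?_ (sq_nonneg _)
    have h1 := hφm α i huu
    have h2 := hφn α i u hu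
    have h3 := hφ1 α i u'
    nlinarith
  have hqq : ∀ (m q : ℕ), (q : ℝ) / 2 ^ m ≤ ((q : ℝ) + 1) / 2 ^ m := fun m q => by
    gcongr; linarith
  obtain ⟨η, hη1, hη2⟩ := vec (𝒜 := 𝒜 × (Σ m : Fin (N + 1), Fin (2 ^ (m : ℕ))))
    (fun p i => (φ p.1 i (((p.2.2 : ℕ) + 1) / 2 ^ (p.2.1 : ℕ)) -
      φ p.1 i ((p.2.2 : ℕ) / 2 ^ (p.2.1 : ℕ))) • a p.1 i)
    (fun p => μ p.1 * (1 / 2) ^ (p.2.1 : ℕ)) (fun p => t p.1 * (16 / 25) ^ (p.2.1 : ℕ)) L
    (fun p => by have := ht p.1; positivity)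
    (by
      rintro ⟨α, m, q⟩
      refine (sum_le_sum fun i _ => hsq α i _ _ (by positivity) (hqq _ _)).trans
        ((hφe α _ _ (by positivity) (hqq _ _)).trans (le_of_eq ?_))
      simp only [one_div, inv_pow]
      field_simp
      ring)
    (by
      intro i
      rw [Fintype.sum_prod_type]
      have h1 : ∀ α, ∑ p : (Σ m : Fin (N + 1), Fin (2 ^ (m : ℕ))),
          ‖(φ α i (((p.2 : ℕ) + 1) / 2 ^ (p.1 : ℕ)) - φ α i ((p.2 : ℕ) / 2 ^ (p.1 : ℕ))) • a α i‖ ^ 2
          * ((μ α * (1 / 2) ^ (p.1 : ℕ)) ^ 4 / (t α * (16 / 25) ^ (p.1 : ℕ)) ^ 5)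
          ≤ 3 * (‖a α i‖ ^ 2 * (μ α ^ 4 / t α ^ 5)) := by
        intro α
        have h3 := ht α
        rw [Fintype.sum_sigma]
        have h2 : ∀ m : Fin (N + 1), ∑ q : Fin (2 ^ (m : ℕ)),
            ‖(φ α i (((q : ℕ) + 1) / 2 ^ (m : ℕ)) - φ α i ((q : ℕ) / 2 ^ (m : ℕ))) • a α i‖ ^ 2
            * ((μ α * (1 / 2) ^ (m : ℕ)) ^ 4 / (t α * (16 / 25) ^ (m : ℕ)) ^ 5)
            ≤ ‖a α i‖ ^ 2 * (μ α ^ 4 / t α ^ 5) * (2 / 3) ^ (m : ℕ) := by
          intro m
          rw [← sum_mul, mul_assoc]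
          refine mul_le_mul ?_ ?_ (by positivity) (by positivity)
          · refine (sum_le_sum fun q _ => hsq α i _ _ (by positivity) (hqq _ _)).trans ?_
            rw [← mul_sum, Fin.sum_univ_eq_sum_range
              (fun q => φ α i (((q : ℕ) + 1) / 2 ^ (m : ℕ)) - φ α i ((q : ℕ) / 2 ^ (m : ℕ)))]
            have := sum_range_sub (fun q : ℕ => φ α i ((q : ℝ) / 2 ^ (m : ℕ))) (2 ^ (m : ℕ))
            push_cast at this
            rw [this, zero_div, hφ0, sub_zero]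
            exact mul_le_of_le_one_right (sq_nonneg _) (hφ1 _ _ _)
          · have e : (μ α * (1 / 2) ^ (m : ℕ)) ^ 4 / (t α * (16 / 25) ^ (m : ℕ)) ^ 5
                = μ α ^ 4 / t α ^ 5 * ((1 / 2) ^ 4 / (16 / 25) ^ 5) ^ (m : ℕ) := by
              rw [div_pow ((1 / 2 : ℝ) ^ 4), ← pow_mul, ← pow_mul, mul_comm 4, mul_comm 5, pow_mul,
                pow_mul]
              field_simp
            rw [e]
            exact mul_le_mul_of_nonneg_left (pow_le_pow_left₀ (by positivity) (by norm_num) _)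
              (by positivity)
        refine (sum_le_sum fun m _ => h2 m).trans ?_
        rw [← mul_sum, Fin.sum_univ_eq_sum_range (fun m => (2 / 3 : ℝ) ^ m), mul_comm 3]
        refine mul_le_mul_of_nonneg_left ?_ (by positivity)
        refine (geo_le (2 / 3) (by norm_num) (by norm_num) _).trans (by norm_num)
      have h2 := sum_le_sum fun α (_ : α ∈ univ) => h1 α
      rw [← mul_sum] at h2
      refine h2.trans ?_
      have := hcost i
      norm_num at this ⊢
      linarith)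
    hL0 hL1 hL2
  refine ⟨η, fun α k => ?_, fun k => (hη2 k).1⟩
  set R : ℝ := √(4 * 300 ^ 2 * μ α + 40 * t α) with hR
  have hμα := hμ0 α
  have htα := ht α
  have hR0 : 0 ≤ R := Real.sqrt_nonneg _
  have hR2 : R ^ 2 = 4 * 300 ^ 2 * μ α + 40 * t α := Real.sq_sqrt (by positivity)
  let ω : ℝ → F := fun u => ∑ i, η i • φ α i u • a α i
  have hωd : ∀ u u', ω u' - ω u = ∑ i, η i • (φ α i u' - φ α i u) • a α i := by
    intro u u'
    simp only [ω, ← sum_sub_distrib, sub_smul, smul_sub]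
  have hch := dyadic_chain ω (by simp [ω, hφ0]) (fun m => R * (4 / 5) ^ m)
    (fun m => by positivity) N
    (by
      intro m hm q hq
      have h1 := hη1 (α, ⟨⟨m, by omega⟩, ⟨q, hq⟩⟩)
      simp only at h1
      rw [hωd]
      refine le_of_sq_le_sq (h1.trans ?_) (by positivity)
      rw [mul_pow, hR2, ← pow_mul, mul_comm m 2, pow_mul]
      have h2 : (1 / 2 : ℝ) ^ m ≤ (16 / 25) ^ m :=
        pow_le_pow_left₀ (by positivity) (by norm_num) _
      norm_num at h2 ⊢
      nlinarith) N le_rfl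
  obtain ⟨x, hx0, hx1, hx⟩ := hφk α k
  have hq1 : ((⌊2 ^ N * x⌋₊ : ℕ) : ℝ) ≤ 2 ^ N * x := Nat.floor_le (by positivity)
  have hq2 : 2 ^ N * x < ((⌊2 ^ N * x⌋₊ : ℕ) : ℝ) + 1 := Nat.lt_floor_add_one _
  set q := ⌊2 ^ N * x⌋₊ with hq
  have hq3 : q ≤ 2 ^ N := by
    have : (q : ℝ) ≤ ((2 ^ N : ℕ) : ℝ) := by
      push_cast
      nlinarith [(by positivity : (0 : ℝ) < 2 ^ N)]
    exact_mod_cast this
  have h1 := hch q hq3
  rw [← mul_sum] at h1
  have h2 := mul_le_mul_of_nonneg_left (geo_le (4 / 5) (by norm_num) (by norm_num) (N + 1)) hR0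
  have e : ∑ i : Fin N with i.val < k, η i • a α i = ω x := by
    simp only [ω, hx, sum_filter, smul_ite, smul_zero]
  have hu : (q : ℝ) / 2 ^ N ≤ x := by rw [div_le_iff₀ (by positivity)]; linarith
  have h3 : ‖ω x - ω (q / 2 ^ N)‖ ≤ 2 * R := by
    rw [hωd]
    refine (norm_sum_le _ _).trans ?_
    have h4 : ∑ i, ‖η i • (φ α i x - φ α i (q / 2 ^ N)) • a α i‖ ≤
        ∑ i, 2 * ‖(φ α i x - φ α i (q / 2 ^ N)) • a α i‖ := by
      refine sum_le_sum fun i _ => ?_
      rw [norm_smul]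
      exact mul_le_mul_of_nonneg_right ((hη2 i).2.trans (by norm_num)) (norm_nonneg _)
    refine h4.trans ?_
    rw [← mul_sum]
    refine mul_le_mul_of_nonneg_left (le_of_sq_le_sq ?_ hR0) (by norm_num)
    refine (sq_sum_le_card_mul_sum_sq).trans ?_
    have h5 := (sum_le_sum fun i (_ : i ∈ univ) => hsq α i _ _ (by positivity) hu).trans
      (hφe α _ _ (by positivity) hu)
    have h6 : (N : ℝ) ≤ 2 ^ N := by exact_mod_cast (Nat.lt_two_pow_self).le
    have h7 : (N : ℝ) * (x - q / 2 ^ N) ≤ 1 := by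
      have h8 : 2 ^ N * (x - q / 2 ^ N) ≤ 1 := by
        rw [mul_sub, mul_div_cancel₀ _ (by positivity)]; linarith
      nlinarith [mul_le_mul_of_nonneg_right h6 (sub_nonneg.2 hu)]
    rw [card_univ, Fintype.card_fin, hR2]
    have h9 := mul_le_mul_of_nonneg_left h5 (Nat.cast_nonneg (α := ℝ) N)
    nlinarith [mul_le_mul_of_nonneg_left h7 hμα.le]
  rw [e]
  have h4 := norm_sub_norm_le (ω x) (ω (q / 2 ^ N))
  norm_num at h2
  linarith

end Vale.Agent.P262
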